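import Vale.Agent.Lib.P110.Grid

namespace Vale.Agent.Lib.P110

open Complex Finset

lemma signSeq_isLittlewood {N : ℕ} (s : Fin N → Bool) : IsLittlewood (signSeq s) N := by
  intro k hk
  unfold signSeq
  rw [dif_pos hk]
  split_ifs
  · left; rfl
  · right; rfl

lemma norm_cexp_sub_cexp_le (x y : ℝ) :
    ‖cexp (I * (x : ℂ)) - cexp (I * (y : ℂ))‖ ≤ |x - y| := by
  have h1 : cexp (I * (x : ℂ)) - cexp (I * (y : ℂ)) =
      cexp (I * (y : ℂ)) * (cexp (I * ((x - y : ℝ) : ℂ)) - 1) := by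
    rw [mul_sub, ← Complex.exp_add, mul_one]
    congr 2
    push_cast
    ring
  rw [h1, norm_mul]
  have h2 : ‖cexp (I * (y : ℂ))‖ = 1 := by
    rw [mul_comm, Complex.norm_exp_ofReal_mul_I]
  rw [h2, one_mul]
  exact le_trans Real.norm_exp_I_mul_ofReal_sub_one_le (by rw [Real.norm_eq_abs])

/-- two flat polynomials with close data are close nearby -/
lemma close_of_same_data {a b : ℕ → ℤ} {N : ℕ} {K η s : ℝ} (hη : 0 < η) (hK : 0 < K) (hs : 0 ≤ s)
    {θ ca cb : ℝ} (hA : ‖polyAt a N θ - polyAt b N θ‖ ≤ 2 * η * s) (hc : |ca - cb| ≤ η / K)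
    (hB : ‖polyAt b N θ‖ ≤ 3 / 2 * s)
    {t : ℝ} (ht : |t| ≤ K)
    (ra : ‖polyAt a N (θ + t / N) - polyAt a N θ * cexp (I * (ca : ℂ) * (t : ℂ))‖ ≤ η * s)
    (rb : ‖polyAt b N (θ + t / N) - polyAt b N θ * cexp (I * (cb : ℂ) * (t : ℂ))‖ ≤ η * s) :
    ‖polyAt a N (θ + t / N) - polyAt b N (θ + t / N)‖ ≤ 6 * η * s := by
  have h1 : ∀ c : ℝ, I * (c : ℂ) * (t : ℂ) = I * ((c * t : ℝ) : ℂ) := by
    intro c; push_cast; ring
  have h2 : ‖cexp (I * (ca : ℂ) * (t : ℂ))‖ = 1 := by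
    rw [h1, mul_comm, Complex.norm_exp_ofReal_mul_I]
  have h3 : ‖cexp (I * (ca : ℂ) * (t : ℂ)) - cexp (I * (cb : ℂ) * (t : ℂ))‖ ≤ η := by
    rw [h1, h1]
    refine le_trans (norm_cexp_sub_cexp_le _ _) ?_
    have : ca * t - cb * t = (ca - cb) * t := by ring
    rw [this, abs_mul]
    calc |ca - cb| * |t| ≤ η / K * K := by gcongr
      _ = η := by field_simp
  have h4 : polyAt a N (θ + t / N) - polyAt b N (θ + t / N) =
      (polyAt a N (θ + t / N) - polyAt a N θ * cexp (I * (ca : ℂ) * (t : ℂ))) -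
      (polyAt b N (θ + t / N) - polyAt b N θ * cexp (I * (cb : ℂ) * (t : ℂ))) +
      (polyAt a N θ - polyAt b N θ) * cexp (I * (ca : ℂ) * (t : ℂ)) +
      polyAt b N θ * (cexp (I * (ca : ℂ) * (t : ℂ)) - cexp (I * (cb : ℂ) * (t : ℂ))) := by ring
  rw [h4]
  refine le_trans (norm_add_le _ _) ?_
  have h5 := norm_add_le ((polyAt a N (θ + t / N) - polyAt a N θ * cexp (I * (ca : ℂ) * (t : ℂ))) -
      (polyAt b N (θ + t / N) - polyAt b N θ * cexp (I * (cb : ℂ) * (t : ℂ))))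
      ((polyAt a N θ - polyAt b N θ) * cexp (I * (ca : ℂ) * (t : ℂ)))
  have h6 := norm_sub_le (polyAt a N (θ + t / N) - polyAt a N θ * cexp (I * (ca : ℂ) * (t : ℂ)))
      (polyAt b N (θ + t / N) - polyAt b N θ * cexp (I * (cb : ℂ) * (t : ℂ)))
  have h7 : ‖(polyAt a N θ - polyAt b N θ) * cexp (I * (ca : ℂ) * (t : ℂ))‖ ≤ 2 * η * s := by
    rw [norm_mul, h2, mul_one]; exact hA
  have h8 : ‖polyAt b N θ * (cexp (I * (ca : ℂ) * (t : ℂ)) - cexp (I * (cb : ℂ) * (t : ℂ)))‖ ≤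
      3 / 2 * s * η := by
    rw [norm_mul]
    gcongr
  have h9 : 0 ≤ η * s := by positivity
  nlinarith

/-- the data record of a polynomial at grid point `i K / N`. -/
noncomputable def recData (η K : ℝ) (a : ℕ → ℤ) (N i : ℕ) : ℤ × ℤ × ℤ :=
  (⌊(polyAt a N ((i : ℝ) * K / N)).re / (η * Real.sqrt N)⌋,
    ⌊(polyAt a N ((i : ℝ) * K / N)).im / (η * Real.sqrt N)⌋,
    ⌊phaseDeriv a N ((i : ℝ) * K / N) / N * K / η⌋)

lemma norm_polyAt_le {a : ℕ → ℤ} {N : ℕ} {ε : ℝ} (h : IsFlat ε a N) (hε : ε ≤ 1) (θ : ℝ) :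
    ‖polyAt a N θ‖ ≤ 3 / 2 * Real.sqrt N := by
  have h5 := norm_sq_polyAt_le h θ
  have hN0 : (0 : ℝ) ≤ N := Nat.cast_nonneg _
  have h6 : (1 + ε) * (N : ℝ) ≤ (3 / 2 * Real.sqrt N) ^ 2 := by
    rw [mul_pow, Real.sq_sqrt hN0]
    nlinarith
  exact (pow_le_pow_iff_left₀ (norm_nonneg _) (by positivity) (by norm_num)).mp (le_trans h5 h6)

/-- sup closeness from equal records. -/
lemma sup_close_of_rec_eq {a b : ℕ → ℤ} {N : ℕ} {K η ε : ℝ} (hN : 1 ≤ N) (hη : 0 < η)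
    (hK : 0 < K) (hε : ε ≤ 1) (ha : IsFlat ε a N) (hb : IsFlat ε b N)
    (ra : ∀ θ t : ℝ, |t| ≤ K → ‖polyAt a N (θ + t / N) - polyAt a N θ *
          cexp (I * ((phaseDeriv a N θ / N : ℝ) : ℂ) * (t : ℂ))‖ ≤ η * Real.sqrt N)
    (rb : ∀ θ t : ℝ, |t| ≤ K → ‖polyAt b N (θ + t / N) - polyAt b N θ *
          cexp (I * ((phaseDeriv b N θ / N : ℝ) : ℂ) * (t : ℂ))‖ ≤ η * Real.sqrt N)
    {i : ℕ} (hsame : recData η K a N i = recData η K b N i) {t : ℝ} (ht : |t| ≤ K) :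
    ‖polyAt a N ((i : ℝ) * K / N + t / N) - polyAt b N ((i : ℝ) * K / N + t / N)‖ ≤
      6 * η * Real.sqrt N := by
  have hNpos : (0 : ℝ) < N := by exact_mod_cast hN
  have hs : 0 < Real.sqrt N := Real.sqrt_pos.mpr hNpos
  unfold recData at hsame
  simp only [Prod.mk.injEq] at hsame
  obtain ⟨h1, h2, h3⟩ := hsame
  set θ : ℝ := (i : ℝ) * K / N with hθ
  have hs2 : 0 < η * Real.sqrt N := by positivity
  have hre := Int.abs_sub_lt_one_of_floor_eq_floor h1
  have him := Int.abs_sub_lt_one_of_floor_eq_floor h2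
  have hc := Int.abs_sub_lt_one_of_floor_eq_floor h3
  rw [← sub_div, abs_div, abs_of_pos hs2, div_lt_one hs2] at hre him
  have hAB : ‖polyAt a N θ - polyAt b N θ‖ ≤ 2 * η * Real.sqrt N := by
    refine le_trans (Complex.norm_le_abs_re_add_abs_im _) ?_
    rw [Complex.sub_re, Complex.sub_im]
    linarith
  have hcc : |phaseDeriv a N θ / N - phaseDeriv b N θ / N| ≤ η / K := by
    have h4 : phaseDeriv a N θ / N * K / η - phaseDeriv b N θ / N * K / η =
        (phaseDeriv a N θ / N - phaseDeriv b N θ / N) * (K / η) := by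
      ring
    rw [h4, abs_mul, abs_of_pos (by positivity : 0 < K / η)] at hc
    rw [le_div_iff₀ hK]
    have h5 : |phaseDeriv a N θ / N - phaseDeriv b N θ / N| * K < η := by
      have := mul_lt_mul_of_pos_right hc hη
      rw [one_mul] at this
      have h6 : |phaseDeriv a N θ / N - phaseDeriv b N θ / N| * (K / η) * η =
          |phaseDeriv a N θ / N - phaseDeriv b N θ / N| * K := by
        field_simp
      rwa [h6] at this
    exact h5.le
  exact close_of_same_data hη hK hs.le hAB hcc (norm_polyAt_le hb hε θ) ht (ra θ t ht) (rb θ t ht)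

lemma polyAt_sub_eq (a b : ℕ → ℤ) (N : ℕ) (θ : ℝ) :
    polyAt a N θ - polyAt b N θ = Ypoly (fun k => (a k : ℝ) - (b k : ℝ)) N θ := by
  unfold polyAt Ypoly
  rw [← Finset.sum_sub_distrib]
  refine Finset.sum_congr rfl fun k _ => ?_
  push_cast
  ring

/-- Parseval bound: sup closeness on the full grid implies small `ℓ²` distance. -/
lemma ell2_le_of_sup {a b : ℕ → ℤ} {N : ℕ} {C : ℝ}
    (h : ∀ u ∈ range (N + 1), ‖polyAt a N (gridPt (N + 1) u) - polyAt b N (gridPt (N + 1) u)‖ ^ 2 ≤ C) :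
    ∑ k ∈ range N, ((a k : ℝ) - (b k : ℝ)) ^ 2 ≤ C := by
  have h1 := grid_parseval (fun k => (a k : ℝ) - (b k : ℝ)) N (N + 1) (Nat.lt_succ_self N)
  have h2 : ∑ u ∈ range (N + 1), ‖Ypoly (fun k => (a k : ℝ) - (b k : ℝ)) N (gridPt (N + 1) u)‖ ^ 2
      ≤ ((N + 1 : ℕ) : ℝ) * C := by
    calc _ ≤ ∑ u ∈ range (N + 1), C := by
          refine Finset.sum_le_sum fun u hu => ?_
          rw [← polyAt_sub_eq]
          exact h u hu
      _ = _ := by simp
  rw [h1] at h2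
  have hpos : (0 : ℝ) < ((N + 1 : ℕ) : ℝ) := by positivity
  exact le_of_mul_le_mul_left h2 hpos

/-- Every full grid point is a record point plus a small shift. -/
lemma grid_decomp {N : ℕ} {K : ℝ} (hN : 1 ≤ N) (hK : 0 < K) (u : ℕ) (hu : u ∈ range (N + 1)) :
    ∃ i : ℕ, i < ⌊2 * Real.pi * N / K⌋₊ + 1 ∧ ∃ t : ℝ, |t| ≤ K ∧
      gridPt (N + 1) u = (i : ℝ) * K / N + t / N := by
  have hNpos : (0 : ℝ) < N := by exact_mod_cast hN
  have hu' : u < N + 1 := Finset.mem_range.mp hu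
  have hθ0 : 0 ≤ gridPt (N + 1) u := by
    unfold gridPt
    positivity
  have hθ1 : gridPt (N + 1) u ≤ 2 * Real.pi := by
    unfold gridPt
    rw [div_le_iff₀ (by positivity)]
    have : (u : ℝ) ≤ ((N + 1 : ℕ) : ℝ) := by exact_mod_cast hu'.le
    have hpi := Real.pi_pos
    nlinarith
  set x : ℝ := gridPt (N + 1) u * N / K with hx
  have hx0 : 0 ≤ x := by positivity
  refine ⟨⌊x⌋₊, ?_, x * K - (⌊x⌋₊ : ℝ) * K, ?_, ?_⟩
  · have h1 : x ≤ 2 * Real.pi * N / K := by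
      rw [hx]
      gcongr
    have h2 := Nat.floor_le_floor h1
    omega
  · have h1 := Nat.floor_le hx0
    have h2 := Nat.lt_floor_add_one x
    rw [abs_le]
    constructor <;> nlinarith
  · rw [hx]
    field_simp
    ring

/-- For Littlewood sequences, equal records imply small Hamming distance. -/
lemma hamming_le_of_rec_eq {a b : ℕ → ℤ} {N : ℕ} {K η ε : ℝ} (hN : 1 ≤ N) (hη : 0 < η)
    (hK : 0 < K) (hε : ε ≤ 1) (ha : IsFlat ε a N) (hb : IsFlat ε b N)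
    (ra : ∀ θ t : ℝ, |t| ≤ K → ‖polyAt a N (θ + t / N) - polyAt a N θ *
          cexp (I * ((phaseDeriv a N θ / N : ℝ) : ℂ) * (t : ℂ))‖ ≤ η * Real.sqrt N)
    (rb : ∀ θ t : ℝ, |t| ≤ K → ‖polyAt b N (θ + t / N) - polyAt b N θ *
          cexp (I * ((phaseDeriv b N θ / N : ℝ) : ℂ) * (t : ℂ))‖ ≤ η * Real.sqrt N)
    (hsame : ∀ i, i < ⌊2 * Real.pi * N / K⌋₊ + 1 → recData η K a N i = recData η K b N i) :
    ∑ k ∈ range N, ((a k : ℝ) - (b k : ℝ)) ^ 2 ≤ 36 * η ^ 2 * N := by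
  apply ell2_le_of_sup
  intro u hu
  obtain ⟨i, hi, t, ht, hθ⟩ := grid_decomp hN hK u hu
  rw [hθ]
  have h1 := sup_close_of_rec_eq hN hη hK hε ha hb ra rb (hsame i hi) ht
  have hN0 : (0 : ℝ) ≤ N := Nat.cast_nonneg _
  calc _ ≤ (6 * η * Real.sqrt N) ^ 2 := by gcongr
    _ = 36 * η ^ 2 * N := by
      rw [mul_pow, mul_pow, Real.sq_sqrt hN0]
      ring

lemma signSeq_apply {N : ℕ} (s : Fin N → Bool) (i : Fin N) :
    signSeq s i = if s i then 1 else -1 := by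
  unfold signSeq
  rw [dif_pos i.2]

lemma card_diff_le_of_ell2 {N : ℕ} (s t : Fin N → Bool) {C : ℝ}
    (h : ∑ k ∈ range N, (((signSeq s k : ℤ) : ℝ) - ((signSeq t k : ℤ) : ℝ)) ^ 2 ≤ C) :
    (4 : ℝ) * ((univ.filter (fun i => s i ≠ t i)).card : ℝ) ≤ C := by
  refine le_trans ?_ h
  rw [Finset.sum_range]
  have h1 : ∀ i : Fin N, (if s i ≠ t i then (4 : ℝ) else 0) ≤
      (((signSeq s i : ℤ) : ℝ) - ((signSeq t i : ℤ) : ℝ)) ^ 2 := by
    intro i
    rw [signSeq_apply, signSeq_apply]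
    cases s i <;> cases t i <;> norm_num
  calc (4 : ℝ) * ((univ.filter (fun i => s i ≠ t i)).card : ℝ)
      = ∑ i : Fin N, (if s i ≠ t i then (4 : ℝ) else 0) := by
        rw [Finset.sum_ite, Finset.sum_const_zero, add_zero, Finset.sum_const, nsmul_eq_mul]
        ring
    _ ≤ _ := Finset.sum_le_sum fun i _ => h1 i

/-- Hamming balls -/
lemma hamming_ball_card (N d : ℕ) (s₀ : Fin N → Bool) {t : ℝ} (ht : 0 < t) (ht1 : t ≤ 1) :
    ((univ.filter (fun s : Fin N → Bool => (univ.filter (fun i => s i ≠ s₀ i)).card ≤ d)).card : ℝ)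
      ≤ (1 + t) ^ N / t ^ d := by
  classical
  set F := univ.filter (fun s : Fin N → Bool => (univ.filter (fun i => s i ≠ s₀ i)).card ≤ d)
  set U : (Fin N → Bool) → Finset (Fin N) := fun s => univ.filter (fun i => s i ≠ s₀ i) with hU
  have hinj : Set.InjOn U F := by
    intro s _ s' _ hss
    funext i
    have h1 : s i ≠ s₀ i ↔ s' i ≠ s₀ i := by
      have h2 : i ∈ U s ↔ i ∈ U s' := by rw [hss]
      simpa [hU] using h2
    cases hs : s i <;> cases hs' : s' i <;> cases h0 : s₀ i <;> simp_all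
  have h1 : (F.card : ℝ) = ((F.image U).card : ℝ) := by
    rw [Finset.card_image_of_injOn hinj]
  rw [h1, le_div_iff₀ (by positivity)]
  have h2 : (((F.image U).card : ℝ)) * t ^ d ≤ ∑ x ∈ (univ : Finset (Fin N)).powerset, t ^ x.card * 1 ^ (N - x.card) := by
    calc (((F.image U).card : ℝ)) * t ^ d = ∑ x ∈ F.image U, t ^ d := by
          rw [Finset.sum_const, nsmul_eq_mul]
      _ ≤ ∑ x ∈ F.image U, t ^ x.card := by
          refine Finset.sum_le_sum fun x hx => ?_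
          obtain ⟨s, hs, rfl⟩ := Finset.mem_image.mp hx
          have hs' : (U s).card ≤ d := (Finset.mem_filter.mp hs).2
          exact pow_le_pow_of_le_one ht.le ht1 hs'
      _ = ∑ x ∈ F.image U, t ^ x.card * 1 ^ (N - x.card) := by simp
      _ ≤ _ := by
          refine Finset.sum_le_sum_of_subset_of_nonneg ?_ ?_
          · intro x _
            exact Finset.mem_powerset.mpr (Finset.subset_univ _)
          · intro x _ _
            positivity
  have h3 := Finset.sum_pow_mul_eq_add_pow t (1 : ℝ) (univ : Finset (Fin N))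
  simp only [Finset.card_univ, Fintype.card_fin] at h3
  rw [h3] at h2
  rw [add_comm 1 t]
  exact h2

end Vale.Agent.Lib.P110
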