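import Vale.Agent.Lib.P110.Count

namespace Vale.Agent.Lib.P110

open Complex Finset

lemma floor_mem_Icc {x X : ℝ} (hX : |x| ≤ X) :
    ⌊x⌋ ∈ Finset.Icc (-((⌈X⌉₊ + 1 : ℕ) : ℤ)) ((⌈X⌉₊ + 1 : ℕ) : ℤ) := by
  have h1 := abs_le.mp hX
  have h2 : X ≤ (⌈X⌉₊ : ℝ) := Nat.le_ceil X
  have h3 := Int.floor_le x
  have h4 := Int.lt_floor_add_one x
  rw [Finset.mem_Icc]
  constructor
  · have : (-((⌈X⌉₊ + 1 : ℕ) : ℤ) : ℝ) < (⌊x⌋ : ℝ) + 1 := by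
      push_cast
      linarith
    have h5 : -((⌈X⌉₊ + 1 : ℕ) : ℤ) < ⌊x⌋ + 1 := by exact_mod_cast this
    omega
  · have : ((⌊x⌋ : ℤ) : ℝ) ≤ (((⌈X⌉₊ + 1 : ℕ) : ℤ) : ℝ) := by
      push_cast
      linarith
    exact_mod_cast this

/-- The box of possible records. -/
noncomputable def recBox (η K : ℝ) (T : ℕ) : Finset (Fin T → ℤ × ℤ × ℤ) :=
  Fintype.piFinset (fun _ : Fin T =>
    Finset.Icc (-((⌈3 / (2 * η)⌉₊ + 1 : ℕ) : ℤ)) ((⌈3 / (2 * η)⌉₊ + 1 : ℕ) : ℤ) ×ˢ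
    Finset.Icc (-((⌈3 / (2 * η)⌉₊ + 1 : ℕ) : ℤ)) ((⌈3 / (2 * η)⌉₊ + 1 : ℕ) : ℤ) ×ˢ
    Finset.Icc (-((⌈9 * K / (8 * η)⌉₊ + 1 : ℕ) : ℤ)) ((⌈9 * K / (8 * η)⌉₊ + 1 : ℕ) : ℤ))

lemma card_Icc_sym (B : ℕ) : (Finset.Icc (-(B : ℤ)) (B : ℤ)).card = 2 * B + 1 := by
  rw [Int.card_Icc]
  omega

lemma card_recBox (η K : ℝ) (T : ℕ) :
    (recBox η K T).card = ((2 * (⌈3 / (2 * η)⌉₊ + 1) + 1) * ((2 * (⌈3 / (2 * η)⌉₊ + 1) + 1) *
      (2 * (⌈9 * K / (8 * η)⌉₊ + 1) + 1))) ^ T := by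
  unfold recBox
  rw [Fintype.card_piFinset]
  simp only [Finset.card_product, card_Icc_sym, Finset.prod_const, Finset.card_univ,
    Fintype.card_fin]

lemma recData_mem {a : ℕ → ℤ} {N : ℕ} {K η ε : ℝ} (hN : 1 ≤ N) (hη : 0 < η) (hK : 0 < K)
    (hε : ε ≤ 1) (ha : IsFlat ε a N)
    (hc : ∀ θ : ℝ, -(1 / 8) ≤ phaseDeriv a N θ / N ∧ phaseDeriv a N θ / N ≤ 9 / 8) (i : ℕ) :
    recData η K a N i ∈
      (Finset.Icc (-((⌈3 / (2 * η)⌉₊ + 1 : ℕ) : ℤ)) ((⌈3 / (2 * η)⌉₊ + 1 : ℕ) : ℤ) ×ˢ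
      Finset.Icc (-((⌈3 / (2 * η)⌉₊ + 1 : ℕ) : ℤ)) ((⌈3 / (2 * η)⌉₊ + 1 : ℕ) : ℤ) ×ˢ
      Finset.Icc (-((⌈9 * K / (8 * η)⌉₊ + 1 : ℕ) : ℤ)) ((⌈9 * K / (8 * η)⌉₊ + 1 : ℕ) : ℤ)) := by
  have hNpos : (0 : ℝ) < N := by exact_mod_cast hN
  have hs : 0 < Real.sqrt N := Real.sqrt_pos.mpr hNpos
  have hs2 : 0 < η * Real.sqrt N := by positivity
  set θ : ℝ := (i : ℝ) * K / N with hθ
  have hA := norm_polyAt_le ha hε θ
  have hgen : ∀ x : ℝ, |x| ≤ ‖polyAt a N θ‖ → |x / (η * Real.sqrt N)| ≤ 3 / (2 * η) := by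
    intro x hx
    rw [abs_div, abs_of_pos hs2, div_le_div_iff₀ hs2 (by positivity)]
    nlinarith
  unfold recData
  simp only [Finset.mem_product]
  refine ⟨floor_mem_Icc (hgen _ (Complex.abs_re_le_norm _)),
    floor_mem_Icc (hgen _ (Complex.abs_im_le_norm _)), floor_mem_Icc ?_⟩
  obtain ⟨h1, h2⟩ := hc θ
  rw [abs_le]
  have h3 : phaseDeriv a N θ / N * K / η = (phaseDeriv a N θ / N) * (K / η) := by ring
  have h4 : 9 * K / (8 * η) = 9 / 8 * (K / η) := by field_simp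
  have h5 : 0 < K / η := by positivity
  rw [h3, h4]
  constructor
  · nlinarith
  · nlinarith

/-- The main counting bound. -/
theorem count_bound {K η ε t : ℝ} {N : ℕ} (hN : 1 ≤ N) (hη : 0 < η) (hK : 0 < K) (hε : ε ≤ 1)
    (ht : 0 < t) (ht1 : t ≤ 1)
    (hrig : ∀ a : ℕ → ℤ, IsFlat ε a N →
      ∀ θ : ℝ, -(1 / 8) ≤ phaseDeriv a N θ / N ∧ phaseDeriv a N θ / N ≤ 9 / 8 ∧
        ∀ t : ℝ, |t| ≤ K → ‖polyAt a N (θ + t / N) - polyAt a N θ *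
          cexp (I * ((phaseDeriv a N θ / N : ℝ) : ℂ) * (t : ℂ))‖ ≤ η * Real.sqrt N) :
    (Set.ncard {s : Fin N → Bool | IsFlat ε (signSeq s) N} : ℝ) ≤
      (1 + t) ^ N / t ^ ⌊9 * η ^ 2 * N⌋₊ *
        (((2 * (⌈3 / (2 * η)⌉₊ + 1) + 1) * ((2 * (⌈3 / (2 * η)⌉₊ + 1) + 1) *
          (2 * (⌈9 * K / (8 * η)⌉₊ + 1) + 1)) : ℕ) : ℝ) ^ (⌊2 * Real.pi * N / K⌋₊ + 1) := by
  classical
  set T : ℕ := ⌊2 * Real.pi * N / K⌋₊ + 1 with hT
  set S : Finset (Fin N → Bool) := univ.filter (fun s => IsFlat ε (signSeq s) N) with hS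
  have hSeq : {s : Fin N → Bool | IsFlat ε (signSeq s) N} = (S : Set (Fin N → Bool)) := by
    ext s
    simp [hS]
  rw [hSeq, Set.ncard_coe_finset]
  set f : (Fin N → Bool) → (Fin T → ℤ × ℤ × ℤ) := fun s i => recData η K (signSeq s) N i with hf
  set n : ℕ := ⌊(1 + t) ^ N / t ^ ⌊9 * η ^ 2 * N⌋₊⌋₊ with hn
  have hmaps : ∀ s ∈ S, f s ∈ recBox η K T := by
    intro s hs
    have hflat : IsFlat ε (signSeq s) N := (Finset.mem_filter.mp hs).2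
    unfold recBox
    rw [Fintype.mem_piFinset]
    intro i
    exact recData_mem hN hη hK hε hflat (fun θ => ⟨(hrig _ hflat θ).1, (hrig _ hflat θ).2.1⟩) i
  have hfiber : ∀ b ∈ recBox η K T, (S.filter (fun s => f s = b)).card ≤ n := by
    intro b _
    by_cases hne : (S.filter (fun s => f s = b)).Nonempty
    · obtain ⟨s₀, hs₀⟩ := hne
      obtain ⟨hs₀S, hs₀b⟩ := Finset.mem_filter.mp hs₀
      have hflat₀ : IsFlat ε (signSeq s₀) N := (Finset.mem_filter.mp hs₀S).2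
      have hsub : S.filter (fun s => f s = b) ⊆
          univ.filter (fun s : Fin N → Bool =>
            (univ.filter (fun i => s i ≠ s₀ i)).card ≤ ⌊9 * η ^ 2 * N⌋₊) := by
        intro s hs
        obtain ⟨hsS, hsb⟩ := Finset.mem_filter.mp hs
        have hflat : IsFlat ε (signSeq s) N := (Finset.mem_filter.mp hsS).2
        refine Finset.mem_filter.mpr ⟨Finset.mem_univ _, ?_⟩
        have h1 := hamming_le_of_rec_eq hN hη hK hε hflat hflat₀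
          (fun θ t ht => (hrig _ hflat θ).2.2 t ht) (fun θ t ht => (hrig _ hflat₀ θ).2.2 t ht)
          (by
            intro i hi
            have h2 : f s ⟨i, hi⟩ = f s₀ ⟨i, hi⟩ := by rw [hsb, hs₀b]
            exact h2)
        have h2 := card_diff_le_of_ell2 s s₀ h1
        apply Nat.le_floor
        nlinarith
      have h3 := Finset.card_le_card hsub
      have h4 := hamming_ball_card N ⌊9 * η ^ 2 * N⌋₊ s₀ ht ht1
      apply Nat.le_floor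
      exact le_trans (by exact_mod_cast h3) h4
    · rw [Finset.not_nonempty_iff_eq_empty] at hne
      rw [hne, Finset.card_empty]
      exact Nat.zero_le _
  have hmain := Finset.card_le_mul_card_image_of_maps_to hmaps n hfiber
  rw [card_recBox] at hmain
  have hq : 0 ≤ (1 + t) ^ N / t ^ ⌊9 * η ^ 2 * N⌋₊ := by positivity
  have hn' : (n : ℝ) ≤ (1 + t) ^ N / t ^ ⌊9 * η ^ 2 * N⌋₊ := Nat.floor_le hq
  calc (S.card : ℝ) ≤ ((n * ((2 * (⌈3 / (2 * η)⌉₊ + 1) + 1) * ((2 * (⌈3 / (2 * η)⌉₊ + 1) + 1) *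
          (2 * (⌈9 * K / (8 * η)⌉₊ + 1) + 1))) ^ T : ℕ) : ℝ) := by exact_mod_cast hmain
    _ = (n : ℝ) * (((2 * (⌈3 / (2 * η)⌉₊ + 1) + 1) * ((2 * (⌈3 / (2 * η)⌉₊ + 1) + 1) *
          (2 * (⌈9 * K / (8 * η)⌉₊ + 1) + 1)) : ℕ) : ℝ) ^ T := by push_cast; ring
    _ ≤ _ := by gcongr

/-- numerics: the logarithm of the hamming factor -/
lemma hamming_factor_le {b : ℝ} (hb : 0 < b) (hb1 : b ≤ 1) (N : ℕ) :
    (1 + b ^ 2) ^ N / (b ^ 2) ^ ⌊b ^ 2 * N⌋₊ ≤ Real.exp (3 * b * N) := by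
  have hN0 : (0 : ℝ) ≤ N := Nat.cast_nonneg _
  have h1 : (1 + b ^ 2) ^ N ≤ Real.exp (b ^ 2 * N) := by
    have h2 : 1 + b ^ 2 ≤ Real.exp (b ^ 2) := by
      have := Real.add_one_le_exp (b ^ 2)
      linarith
    calc (1 + b ^ 2) ^ N ≤ (Real.exp (b ^ 2)) ^ N := by gcongr
      _ = Real.exp (b ^ 2 * N) := by
        rw [← Real.exp_nat_mul]
        congr 1
        ring
  have h3 : (1 : ℝ) ≤ 1 / b := by
    rw [le_div_iff₀ hb]; linarith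
  have hlog : Real.log (1 / b) ≤ 1 / b := by
    have := Real.log_le_sub_one_of_pos (by positivity : 0 < 1 / b)
    linarith
  have hd : (⌊b ^ 2 * N⌋₊ : ℝ) ≤ b ^ 2 * N := Nat.floor_le (by positivity)
  have h4 : 1 / (b ^ 2) ^ ⌊b ^ 2 * N⌋₊ ≤ Real.exp (2 * b * N) := by
    have h5 : 1 / (b ^ 2) ^ ⌊b ^ 2 * N⌋₊ = (Real.exp (2 * Real.log (1 / b))) ^ ⌊b ^ 2 * N⌋₊ := by
      have h6 : Real.exp (2 * Real.log (1 / b)) = 1 / b ^ 2 := by
        rw [mul_comm, Real.exp_mul, Real.exp_log (by positivity)]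
        have : (1 / b) ^ (2 : ℝ) = (1 / b) ^ 2 := by norm_cast
        rw [this]
        field_simp
      rw [h6, div_pow, one_pow]
    rw [h5, ← Real.exp_nat_mul]
    apply Real.exp_le_exp.mpr
    have h7 : 0 ≤ Real.log (1 / b) := Real.log_nonneg h3
    calc (⌊b ^ 2 * N⌋₊ : ℝ) * (2 * Real.log (1 / b))
        ≤ (b ^ 2 * N) * (2 * (1 / b)) := by gcongr
      _ = 2 * b * N := by field_simp
  have h8 : b ^ 2 * (N : ℝ) ≤ b * N := by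
    gcongr
    nlinarith
  calc (1 + b ^ 2) ^ N / (b ^ 2) ^ ⌊b ^ 2 * N⌋₊ = (1 + b ^ 2) ^ N * (1 / (b ^ 2) ^ ⌊b ^ 2 * N⌋₊) := by
        ring
    _ ≤ Real.exp (b ^ 2 * N) * Real.exp (2 * b * N) := by gcongr
    _ = Real.exp (b ^ 2 * N + 2 * b * N) := by rw [Real.exp_add]
    _ ≤ Real.exp (3 * b * N) := by
        apply Real.exp_le_exp.mpr
        nlinarith

/-- numerics: the box factor. -/
lemma box_factor_le {K η : ℝ} (hK : 1 ≤ K) (hη : 0 < η) (hη1 : η ≤ 1) :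
    (((2 * (⌈3 / (2 * η)⌉₊ + 1) + 1) * ((2 * (⌈3 / (2 * η)⌉₊ + 1) + 1) *
          (2 * (⌈9 * K / (8 * η)⌉₊ + 1) + 1)) : ℕ) : ℝ) ≤ 512 / η ^ 3 * K := by
  have h1 : ((⌈3 / (2 * η)⌉₊ : ℕ) : ℝ) ≤ 3 / (2 * η) + 1 :=
    (Nat.ceil_lt_add_one (by positivity)).le
  have h2 : ((⌈9 * K / (8 * η)⌉₊ : ℕ) : ℝ) ≤ 9 * K / (8 * η) + 1 :=
    (Nat.ceil_lt_add_one (by positivity)).le
  have h3 : 1 ≤ 1 / η := by
    rw [le_div_iff₀ hη]; linarith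
  have h4 : 3 / (2 * η) = 3 / 2 * (1 / η) := by field_simp
  have h5 : 9 * K / (8 * η) = 9 / 8 * (K * (1 / η)) := by field_simp
  have hA : (2 * (((⌈3 / (2 * η)⌉₊ : ℕ) : ℝ) + 1) + 1) ≤ 8 * (1 / η) := by
    have h1' : ((⌈3 / (2 * η)⌉₊ : ℕ) : ℝ) ≤ 3 / 2 * (1 / η) + 1 := by rw [← h4]; exact h1
    linarith
  have hB : (2 * (((⌈9 * K / (8 * η)⌉₊ : ℕ) : ℝ) + 1) + 1) ≤ 8 * (K * (1 / η)) := by
    have h2' : ((⌈9 * K / (8 * η)⌉₊ : ℕ) : ℝ) ≤ 9 / 8 * (K * (1 / η)) + 1 := by rw [← h5]; exact h2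
    have : 1 ≤ K * (1 / η) := by nlinarith
    linarith
  push_cast
  calc _ ≤ (8 * (1 / η)) * ((8 * (1 / η)) * (8 * (K * (1 / η)))) := by gcongr
    _ = 512 / η ^ 3 * K := by field_simp; norm_num

/-- the main numeric choice -/
lemma exists_params (κ' : ℝ) (hκ : 0 < κ') : ∃ η K : ℝ, 0 < η ∧ 3 * η ≤ 1 ∧ 1 ≤ K ∧
    9 * η ≤ κ' / 2 ∧ 8 / K * (Real.log (512 / η ^ 3) + Real.log K) ≤ κ' / 2 := by
  set η : ℝ := min (1 / 3) (κ' / 18) with hη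
  have hη0 : 0 < η := lt_min (by norm_num) (by positivity)
  have hη1 : η ≤ 1 / 3 := min_le_left _ _
  have hη2 : η ≤ κ' / 18 := min_le_right _ _
  set C₁ : ℝ := Real.log (512 / η ^ 3) with hC₁
  have hC₁0 : 0 ≤ C₁ := by
    apply Real.log_nonneg
    rw [le_div_iff₀ (by positivity)]
    have : η ^ 3 ≤ 1 := pow_le_one₀ hη0.le (by linarith)
    linarith
  set L : ℝ := max 1 ((16 * C₁ + 32) / κ') with hL
  have hL1 : 1 ≤ L := le_max_left _ _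
  have hL2 : (16 * C₁ + 32) / κ' ≤ L := le_max_right _ _
  refine ⟨η, L ^ 2, hη0, by linarith, by nlinarith, by linarith, ?_⟩
  have hL0 : 0 < L := by linarith
  have hlog : Real.log (L ^ 2) ≤ 2 * L := by
    rw [Real.log_pow]
    have := Real.log_le_sub_one_of_pos hL0
    push_cast
    linarith
  have h1 : 16 * C₁ + 32 ≤ κ' * L := by
    rw [div_le_iff₀ hκ] at hL2
    linarith
  calc 8 / L ^ 2 * (C₁ + Real.log (L ^ 2)) ≤ 8 / L ^ 2 * (C₁ + 2 * L) := by gcongr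
    _ ≤ κ' / 2 := by
      rw [div_mul_eq_mul_div, div_le_iff₀ (by positivity)]
      have h2 : C₁ ≤ C₁ * L := by nlinarith
      nlinarith

/-- **Zero entropy**. -/
theorem flat_count (κ : ℝ) (hκ : 0 < κ) : ∃ ε : ℝ, 0 < ε ∧ ∃ N₀ : ℕ, ∀ N : ℕ, N₀ ≤ N →
    (Set.ncard {s : Fin N → Bool | IsFlat ε (signSeq s) N} : ℝ) ≤ (2 : ℝ) ^ (κ * N) := by
  have hlog2 : 0 < Real.log 2 := Real.log_pos (by norm_num)
  obtain ⟨η, K, hη, hη3, hK, hηκ, hKκ⟩ := exists_params (κ * Real.log 2) (by positivity)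
  have hη1 : η ≤ 1 := by linarith
  obtain ⟨ε₀, hε₀, hrig⟩ := rigidity K η hK hη hη1
  refine ⟨min ε₀ 1, lt_min hε₀ one_pos, ⌈K⌉₊ + 1, ?_⟩
  intro N hN
  have hN1 : 1 ≤ N := by omega
  have hNK : K ≤ N := by
    have h1 := Nat.le_ceil K
    have h2 : ((⌈K⌉₊ : ℕ) : ℝ) ≤ N := by
      have : ⌈K⌉₊ ≤ N := by omega
      exact_mod_cast this
    linarith
  have hNpos : (0 : ℝ) < N := by linarith
  set ε : ℝ := min ε₀ 1 with hε
  have hε1 : ε ≤ ε₀ := min_le_left _ _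
  have hε2 : ε ≤ 1 := min_le_right _ _
  have hε0 : 0 < ε := lt_min hε₀ one_pos
  set b : ℝ := 3 * η with hb
  have hb0 : 0 < b := by positivity
  have hbt : 9 * η ^ 2 = b ^ 2 := by rw [hb]; ring
  have hKpos : 0 < K := by linarith
  have hcount := count_bound (K := K) (η := η) (ε := ε) (t := b ^ 2) hN1 hη hKpos hε2
    (by positivity) (by nlinarith)
    (fun a ha => hrig ε hε0.le hε1 N hN1 a ha)
  rw [hbt] at hcount
  have hham := hamming_factor_le hb0 hη3 N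
  have hbox := box_factor_le hK hη hη1
  set D : ℝ := (((2 * (⌈3 / (2 * η)⌉₊ + 1) + 1) * ((2 * (⌈3 / (2 * η)⌉₊ + 1) + 1) *
          (2 * (⌈9 * K / (8 * η)⌉₊ + 1) + 1)) : ℕ) : ℝ) with hD
  have hD1 : 1 ≤ D := by
    rw [hD]
    have : 1 ≤ ((2 * (⌈3 / (2 * η)⌉₊ + 1) + 1) * ((2 * (⌈3 / (2 * η)⌉₊ + 1) + 1) *
          (2 * (⌈9 * K / (8 * η)⌉₊ + 1) + 1)) : ℕ) := Nat.succ_le_of_lt (by positivity)
    exact_mod_cast this
  set T : ℕ := ⌊2 * Real.pi * N / K⌋₊ + 1 with hT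
  have hTle : (T : ℝ) ≤ 8 * N / K := by
    have h1 : ((⌊2 * Real.pi * N / K⌋₊ : ℕ) : ℝ) ≤ 2 * Real.pi * N / K := Nat.floor_le (by positivity)
    have h2 : 1 ≤ (N : ℝ) / K := by
      rw [le_div_iff₀ hKpos]; linarith
    have h3 : 2 * Real.pi * N / K = 2 * Real.pi * (N / K) := by ring
    have h4 : 8 * (N : ℝ) / K = 8 * (N / K) := by ring
    have hpi := Real.pi_lt_d2
    rw [hT]
    push_cast
    rw [h4]
    have h1' : ((⌊2 * Real.pi * N / K⌋₊ : ℕ) : ℝ) ≤ 2 * Real.pi * (N / K) := by rw [← h3]; exact h1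
    have h5 : 2 * Real.pi * ((N : ℝ) / K) ≤ 7 * (N / K) := by
      have : 2 * Real.pi ≤ 7 := by linarith
      nlinarith
    linarith
  have hlogD : Real.log D ≤ Real.log (512 / η ^ 3) + Real.log K := by
    rw [← Real.log_mul (by positivity) (by positivity)]
    exact Real.log_le_log (by linarith) hbox
  have hDT : D ^ T ≤ Real.exp (κ * Real.log 2 / 2 * N) := by
    have h1 : D ^ T = Real.exp ((T : ℝ) * Real.log D) := by
      rw [Real.exp_nat_mul, Real.exp_log (by linarith)]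
    rw [h1]
    apply Real.exp_le_exp.mpr
    have hlogD0 : 0 ≤ Real.log D := Real.log_nonneg hD1
    have h2 : 0 ≤ Real.log (512 / η ^ 3) + Real.log K := le_trans hlogD0 hlogD
    calc (T : ℝ) * Real.log D ≤ (8 * N / K) * (Real.log (512 / η ^ 3) + Real.log K) := by gcongr
      _ = (8 / K * (Real.log (512 / η ^ 3) + Real.log K)) * N := by ring
      _ ≤ κ * Real.log 2 / 2 * N := by gcongr
  have hfinal : (2 : ℝ) ^ (κ * N) = Real.exp (κ * Real.log 2 * N) := by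
    rw [Real.rpow_def_of_pos (by norm_num)]
    congr 1
    ring
  rw [hfinal]
  have hham' : (1 + b ^ 2) ^ N / (b ^ 2) ^ ⌊b ^ 2 * N⌋₊ ≤ Real.exp (κ * Real.log 2 / 2 * N) := by
    refine le_trans hham (Real.exp_le_exp.mpr ?_)
    have : 3 * b = 9 * η := by rw [hb]; ring
    rw [this]
    gcongr
  calc _ ≤ (1 + b ^ 2) ^ N / (b ^ 2) ^ ⌊b ^ 2 * N⌋₊ * D ^ T := hcount
    _ ≤ Real.exp (κ * Real.log 2 / 2 * N) * Real.exp (κ * Real.log 2 / 2 * N) := by gcongr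
    _ = Real.exp (κ * Real.log 2 * N) := by
      rw [← Real.exp_add]
      congr 1
      ring

end Vale.Agent.Lib.P110
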