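import Mathlib

namespace Vale.Agent.Lib.P110

open Complex Finset

/-- The value `P(e^{iθ})` of `P(z) = ∑_{k<N} a_k z^k`. -/
noncomputable def polyAt (a : ℕ → ℤ) (N : ℕ) (θ : ℝ) : ℂ :=
  ∑ k ∈ range N, (a k : ℂ) * cexp (I * (k : ℂ) * (θ : ℂ))

/-- The value `z P'(z)` at `z = e^{iθ}` for `P(z) = ∑_{k<N} a_k z^k`. -/
noncomputable def zDerivAt (a : ℕ → ℤ) (N : ℕ) (θ : ℝ) : ℂ :=
  ∑ k ∈ range N, (k : ℂ) * (a k : ℂ) * cexp (I * (k : ℂ) * (θ : ℂ))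

/-- The phase derivative `Re (z P'(z) / P(z))` at `z = e^{iθ}`: where `P(e^{iθ}) ≠ 0` this is the
derivative in `θ` of a continuous argument of `P(e^{iθ})`. -/
noncomputable def phaseDeriv (a : ℕ → ℤ) (N : ℕ) (θ : ℝ) : ℝ :=
  (zDerivAt a N θ / polyAt a N θ).re

/-- The coefficients `a_0, …, a_{N-1}` are all `1` or `-1`. -/
def IsLittlewood (a : ℕ → ℤ) (N : ℕ) : Prop :=
  ∀ k, k < N → a k = 1 ∨ a k = -1

/-- `| |P(z)|^2 - N | ≤ ε N` for all `|z| = 1`. -/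
def IsFlat (ε : ℝ) (a : ℕ → ℤ) (N : ℕ) : Prop :=
  ∀ θ : ℝ, |‖polyAt a N θ‖ ^ 2 - (N : ℝ)| ≤ ε * (N : ℝ)

/-- the sign sequence attached to a bit string (extended by `1` beyond `N`). -/
def signSeq {N : ℕ} (s : Fin N → Bool) : ℕ → ℤ :=
  fun k => if h : k < N then (if s ⟨k, h⟩ then 1 else -1) else 1

end Vale.Agent.Lib.P110
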