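import Vale.Agent.Lib.P110.Monic

namespace Vale.Agent.Lib.P110

open Polynomial Finset

lemma cpt_pow (θ : ℝ) (k : ℕ) :
    cpt θ ^ k = Complex.exp (Complex.I * (k : ℂ) * (θ : ℂ)) := by
  unfold cpt
  rw [← Complex.exp_nat_mul]
  congr 1
  ring

lemma conj_cpt_pow (θ : ℝ) (k : ℕ) :
    (starRingEnd ℂ) (cpt θ ^ k) = Complex.exp (-(Complex.I * (k : ℂ) * (θ : ℂ))) := by
  rw [cpt_pow, ← Complex.exp_conj]
  congr 1
  simp [Complex.conj_ofReal]

/-- Parseval on the grid for an arbitrary set of distinct exponents -/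
theorem grid_parseval_exps (c : ℕ → ℂ) (e : ℕ → ℕ) (n T : ℕ)
    (he : ∀ j, j < n → e j < T)
    (hinj : ∀ j, j < n → ∀ j', j' < n → e j = e j' → j = j') :
    ∑ u ∈ range T, ‖∑ j ∈ range n, c j * cpt (gridPt T u) ^ e j‖ ^ 2 =
      (T : ℝ) * ∑ j ∈ range n, ‖c j‖ ^ 2 := by
  by_cases hT0 : T = 0
  · subst hT0
    simp
  have hTpos : 0 < T := Nat.pos_of_ne_zero hT0
  have key : ∑ u ∈ range T, ((‖∑ j ∈ range n, c j * cpt (gridPt T u) ^ e j‖ ^ 2 : ℝ) : ℂ) =
      (((T : ℝ) * ∑ j ∈ range n, ‖c j‖ ^ 2 : ℝ) : ℂ) := by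
    have h1 : ∀ u ∈ range T, ((‖∑ j ∈ range n, c j * cpt (gridPt T u) ^ e j‖ ^ 2 : ℝ) : ℂ) =
        ∑ j ∈ range n, ∑ j' ∈ range n, (c j * (starRingEnd ℂ) (c j')) *
          Complex.exp (Complex.I * (((e j : ℤ) - (e j' : ℤ) : ℤ) : ℂ) * ((gridPt T u : ℝ) : ℂ)) := by
      intro u _
      have h2 : ((‖∑ j ∈ range n, c j * cpt (gridPt T u) ^ e j‖ ^ 2 : ℝ) : ℂ) =
          (∑ j ∈ range n, c j * cpt (gridPt T u) ^ e j) *
            (starRingEnd ℂ) (∑ j ∈ range n, c j * cpt (gridPt T u) ^ e j) := by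
        rw [Complex.mul_conj, Complex.normSq_eq_norm_sq]
      rw [h2, map_sum, Finset.sum_mul_sum]
      refine Finset.sum_congr rfl fun j _ => Finset.sum_congr rfl fun j' _ => ?_
      rw [map_mul, conj_cpt_pow, cpt_pow]
      have h3 : Complex.I * (((e j : ℤ) - (e j' : ℤ) : ℤ) : ℂ) * ((gridPt T u : ℝ) : ℂ) =
          Complex.I * (e j : ℂ) * ((gridPt T u : ℝ) : ℂ) +
            -(Complex.I * (e j' : ℂ) * ((gridPt T u : ℝ) : ℂ)) := by
        push_cast
        ring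
      rw [h3, Complex.exp_add]
      ring
    rw [Finset.sum_congr rfl h1, Finset.sum_comm]
    have h4 : ∀ j ∈ range n, ∑ u ∈ range T, ∑ j' ∈ range n, (c j * (starRingEnd ℂ) (c j')) *
          Complex.exp (Complex.I * (((e j : ℤ) - (e j' : ℤ) : ℤ) : ℂ) * ((gridPt T u : ℝ) : ℂ)) =
        (T : ℂ) * ((‖c j‖ ^ 2 : ℝ) : ℂ) := by
      intro j hj
      rw [Finset.sum_comm]
      have hj' := Finset.mem_range.mp hj
      rw [Finset.sum_eq_single j]
      · simp only [sub_self, Int.cast_zero, mul_zero, zero_mul, Complex.exp_zero, mul_one,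
          sum_const, card_range, nsmul_eq_mul]
        rw [Complex.mul_conj, Complex.normSq_eq_norm_sq]
      · intro j' hj'' hne
        have hj2 := Finset.mem_range.mp hj''
        rw [← Finset.mul_sum, grid_sum_zero T hTpos, mul_zero]
        intro hd
        have h5 := he j hj'
        have h6 := he j' hj2
        have h7 : |((e j : ℤ) - (e j' : ℤ))| < (T : ℤ) := by
          rw [abs_lt]
          constructor <;> omega
        have h8 := Int.eq_zero_of_abs_lt_dvd hd h7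
        apply hne
        exact (hinj j hj' j' hj2 (by omega)).symm
      · intro hn
        exact absurd hj hn
    rw [Finset.sum_congr rfl h4, ← Finset.mul_sum]
    push_cast
    rfl
  exact_mod_cast key

/-- Parseval on the grid for complex polynomials. -/
theorem grid_parseval_poly (Z : ℂ[X]) (L T : ℕ) (hL : Z.natDegree < L) (hT : L ≤ T) :
    ∑ u ∈ range T, ‖Z.eval (cpt (gridPt T u))‖ ^ 2 = (T : ℝ) * ∑ k ∈ range L, ‖Z.coeff k‖ ^ 2 := by
  have h := grid_parseval_exps (fun k => Z.coeff k) (fun k => k) L T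
    (fun j hj => lt_of_lt_of_le hj hT) (fun j _ j' _ hjj => hjj)
  rw [← h]
  refine Finset.sum_congr rfl fun u _ => ?_
  rw [eval_eq_sum_range' hL]

/-- A coefficient is bounded by the sup norm on the circle. -/
lemma coeff_le_of_sup {Q : ℂ[X]} {β : ℝ} (h : ∀ θ : ℝ, ‖Q.eval (cpt θ)‖ ≤ β) (i : ℕ) :
    ‖Q.coeff i‖ ≤ β := by
  have hβ : 0 ≤ β := le_trans (norm_nonneg _) (h 0)
  set L := max Q.natDegree i + 1 with hL
  have hQ : Q.natDegree < L := by rw [hL]; omega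
  have hi : i ∈ range L := by
    rw [Finset.mem_range, hL]; omega
  have h1 := grid_parseval_poly Q L L hQ le_rfl
  have hLpos : (0 : ℝ) < L := by
    have : 0 < L := by omega
    exact_mod_cast this
  have h2 : ∑ u ∈ range L, ‖Q.eval (cpt (gridPt L u))‖ ^ 2 ≤ (L : ℝ) * β ^ 2 := by
    calc _ ≤ ∑ u ∈ range L, β ^ 2 := by
          refine Finset.sum_le_sum fun u _ => ?_
          have := h (gridPt L u)
          gcongr
      _ = _ := by simp
  rw [h1] at h2
  have h3 : ∑ k ∈ range L, ‖Q.coeff k‖ ^ 2 ≤ β ^ 2 := le_of_mul_le_mul_left h2 hLpos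
  have h4 : ‖Q.coeff i‖ ^ 2 ≤ ∑ k ∈ range L, ‖Q.coeff k‖ ^ 2 :=
    Finset.single_le_sum (f := fun k => ‖Q.coeff k‖ ^ 2) (fun k _ => by positivity) hi
  exact (pow_le_pow_iff_left₀ (norm_nonneg _) hβ (by norm_num)).mp (le_trans h4 h3)

/-- polynomial attached to a real sequence -/
noncomputable def polyOf (y : ℕ → ℝ) (N : ℕ) : ℂ[X] :=
  ∑ k ∈ range N, C (y k : ℂ) * X ^ k

lemma polyOf_eval (y : ℕ → ℝ) (N : ℕ) (θ : ℝ) : (polyOf y N).eval (cpt θ) = Ypoly y N θ := by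
  unfold polyOf Ypoly
  rw [eval_finsetSum]
  refine Finset.sum_congr rfl fun k _ => ?_
  rw [eval_mul, eval_C, eval_pow, eval_X, cpt_pow]

lemma polyOf_coeff (y : ℕ → ℝ) (N k : ℕ) (hk : k < N) : (polyOf y N).coeff k = (y k : ℂ) := by
  unfold polyOf
  rw [finsetSum_coeff, Finset.sum_eq_single k]
  · simp
  · intro j _ hj
    rw [coeff_C_mul_X_pow, if_neg (Ne.symm hj)]
  · intro h
    exact absurd (Finset.mem_range.mpr hk) h

lemma polyOf_natDegree_lt (y : ℕ → ℝ) (N : ℕ) (hN : 0 < N) : (polyOf y N).natDegree < N := by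
  unfold polyOf
  refine lt_of_le_of_lt (natDegree_sum_le_of_forall_le (n := N - 1) _ _ ?_) (by omega)
  intro k hk
  have hk' := Finset.mem_range.mp hk
  refine le_trans (natDegree_C_mul_X_pow_le _ _) (by omega)

/-- convolution of the coefficients of `Q` with a sequence -/
noncomputable def conv (Q : ℂ[X]) (n : ℕ) (f : ℕ → ℂ) (l : ℕ) : ℂ :=
  ∑ i ∈ range (n + 1), Q.coeff i * f (l - i)

lemma coeff_mul_polyOf {Q : ℂ[X]} {n : ℕ} (hQ : Q.natDegree = n) (y : ℕ → ℝ) {N l : ℕ}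
    (hn : n ≤ l) (hl : l < N) :
    (Q * polyOf y N).coeff l = conv Q n (fun k => (y k : ℂ)) l := by
  rw [coeff_mul, Finset.Nat.sum_antidiagonal_eq_sum_range_succ_mk]
  unfold conv
  symm
  apply Finset.sum_subset_zero_on_sdiff
  · intro i hi
    rw [Finset.mem_range] at hi ⊢
    omega
  · intro i hi
    have hi' := Finset.mem_sdiff.mp hi
    have h1 : ¬ i < n + 1 := by simpa using hi'.2
    have h2 : n < i := by omega
    simp only
    rw [coeff_eq_zero_of_natDegree_lt (by omega), zero_mul]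
  · intro i hi
    have hi' := Finset.mem_range.mp hi
    simp only
    rw [polyOf_coeff y N (l - i) (by omega)]

/-- The basic energy bound -/
lemma energy_bound {Q : ℂ[X]} {n : ℕ} (hQ : Q.natDegree = n) (y : ℕ → ℝ) {N T : ℕ} (hN : 0 < N)
    (hT : N + n < T) {r₁ r₂ : ℝ}
    (hu : ∀ u ∈ range T, ‖Q.eval (cpt (gridPt T u))‖ ^ 2 * ‖Ypoly y N (gridPt T u)‖ ^ 2 ≤
      r₁ * ‖Ypoly y N (gridPt T u)‖ ^ 2 + r₂) :
    ∑ l ∈ Finset.Ico n N, ‖conv Q n (fun k => (y k : ℂ)) l‖ ^ 2 ≤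
      r₁ * ∑ k ∈ range N, y k ^ 2 + r₂ := by
  have hTpos : (0 : ℝ) < T := by
    have : 0 < T := by omega
    exact_mod_cast this
  set Z : ℂ[X] := Q * polyOf y N with hZ
  have hZd : Z.natDegree < N + n := by
    rw [hZ]
    have h1 := natDegree_mul_le (p := Q) (q := polyOf y N)
    have h2 := polyOf_natDegree_lt y N hN
    omega
  have h1 := grid_parseval_poly Z (N + n) T hZd hT.le
  have h2 : ∑ u ∈ range T, ‖Z.eval (cpt (gridPt T u))‖ ^ 2 ≤
      ∑ u ∈ range T, (r₁ * ‖Ypoly y N (gridPt T u)‖ ^ 2 + r₂) := by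
    refine Finset.sum_le_sum fun u hu' => ?_
    rw [hZ, eval_mul, polyOf_eval, norm_mul, mul_pow]
    exact hu u hu'
  have h3 := grid_parseval y N T (by omega)
  rw [Finset.sum_add_distrib, ← Finset.mul_sum, h3, h1] at h2
  simp only [sum_const, card_range, nsmul_eq_mul] at h2
  have h4 : ∑ k ∈ range (N + n), ‖Z.coeff k‖ ^ 2 ≤ r₁ * ∑ k ∈ range N, y k ^ 2 + r₂ := by
    refine le_of_mul_le_mul_left ?_ hTpos
    calc _ ≤ r₁ * ((T : ℝ) * ∑ k ∈ range N, y k ^ 2) + (T : ℝ) * r₂ := h2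
      _ = _ := by ring
  refine le_trans ?_ h4
  have h5 : ∑ l ∈ Finset.Ico n N, ‖conv Q n (fun k => (y k : ℂ)) l‖ ^ 2 =
      ∑ l ∈ Finset.Ico n N, ‖Z.coeff l‖ ^ 2 := by
    refine Finset.sum_congr rfl fun l hl => ?_
    have hl' := Finset.mem_Ico.mp hl
    rw [hZ, coeff_mul_polyOf hQ y hl'.1 hl'.2]
  rw [h5]
  refine Finset.sum_le_sum_of_subset_of_nonneg ?_ (fun _ _ _ => by positivity)
  intro l hl
  have hl' := Finset.mem_Ico.mp hl
  rw [Finset.mem_range]
  omega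

end Vale.Agent.Lib.P110
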