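import Vale.Agent.Lib.P110.Gap1

namespace Vale.Agent.Lib.P110

open Polynomial Finset

section det

variable {a : ℕ → ℤ} {N : ℕ}

/-- the prediction residual -/
noncomputable def perr (F : ℕ → ℂ[X]) (a : ℕ → ℤ) (n l : ℕ) : ℂ :=
  conv (F n) n (fun k => (a k : ℂ)) l

lemma det_step {F : ℕ → ℂ[X]} (hF : ∀ n, (F n).Monic ∧ (F n).natDegree = n)
    (ha : IsLittlewood a N) {n l l' : ℕ} (hl : l < N) (hl' : l' < N) (hnl : n ≤ l) (hnl' : n ≤ l')
    (h1 : ‖perr F a n l‖ < 1) (h2 : ‖perr F a n l'‖ < 1)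
    (hsame : ∀ i, i < n → a (l - i) = a (l' - i)) : a (l - n) = a (l' - n) := by
  have hcoef : (F n).coeff n = 1 := by
    have := (hF n).1.coeff_natDegree
    rwa [(hF n).2] at this
  have hdiff : perr F a n l - perr F a n l' = ((a (l - n) : ℂ) - (a (l' - n) : ℂ)) := by
    unfold perr conv
    rw [Finset.sum_range_succ, Finset.sum_range_succ, hcoef]
    have h3 : ∑ i ∈ range n, (F n).coeff i * (a (l - i) : ℂ) =
        ∑ i ∈ range n, (F n).coeff i * (a (l' - i) : ℂ) := by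
      refine Finset.sum_congr rfl fun i hi => ?_
      rw [hsame i (Finset.mem_range.mp hi)]
    rw [h3]
    ring
  have hlt : ‖((a (l - n) : ℂ) - (a (l' - n) : ℂ))‖ < 2 := by
    rw [← hdiff]
    have := norm_sub_le (perr F a n l) (perr F a n l')
    linarith
  by_contra hne
  have h5 := ha (l - n) (by omega)
  have h6 := ha (l' - n) (by omega)
  rcases h5 with h5 | h5 <;> rcases h6 with h6 | h6
  · exact hne (by rw [h5, h6])
  · rw [h5, h6] at hlt
    norm_num at hlt
  · rw [h5, h6] at hlt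
    norm_num at hlt
  · exact hne (by rw [h5, h6])

lemma det_all {F : ℕ → ℂ[X]} (hF : ∀ n, (F n).Monic ∧ (F n).natDegree = n)
    (ha : IsLittlewood a N) {n₀ n₁ l l' : ℕ} (hl : l < N) (hl' : l' < N) (hnl : n₁ ≤ l)
    (hnl' : n₁ ≤ l')
    (h1 : ∀ n, n₀ ≤ n → n ≤ n₁ → ‖perr F a n l‖ < 1)
    (h2 : ∀ n, n₀ ≤ n → n ≤ n₁ → ‖perr F a n l'‖ < 1)
    (hsame : ∀ i, i < n₀ → a (l - i) = a (l' - i)) :
    ∀ i, i ≤ n₁ → a (l - i) = a (l' - i) := by
  intro i
  induction i using Nat.strong_induction_on with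
  | _ i ih =>
    intro hi
    by_cases hi0 : i < n₀
    · exact hsame i hi0
    · apply det_step hF ha hl hl' (by omega) (by omega) (h1 i (by omega) hi) (h2 i (by omega) hi)
      intro j hj
      exact ih j hj (by omega)

/-- the good positions -/
def isBad (F : ℕ → ℂ[X]) (a : ℕ → ℤ) (n₀ n₁ l : ℕ) : Prop :=
  ∃ n, n₀ ≤ n ∧ n ≤ n₁ ∧ 1 ≤ ‖perr F a n l‖

lemma exists_same_suffix (ha : IsLittlewood a N) {n₀ : ℕ} (S : Finset ℕ)
    (hS : ∀ l ∈ S, n₀ ≤ l ∧ l < N) (hcard : 2 ^ n₀ < S.card) :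
    ∃ l ∈ S, ∃ l' ∈ S, l < l' ∧ ∀ i, i < n₀ → a (l - i) = a (l' - i) := by
  classical
  set f : ℕ → (Fin n₀ → Bool) := fun l i => decide (a (l - i) = 1) with hf
  have hc : (Finset.univ : Finset (Fin n₀ → Bool)).card < S.card := by
    simpa using hcard
  obtain ⟨x, hx, y, hy, hxy, hfxy⟩ := Finset.exists_ne_map_eq_of_card_lt_of_maps_to hc
    (f := f) (fun _ _ => Finset.mem_univ _)
  have hequal : ∀ (u v : ℕ), u ∈ S → v ∈ S → f u = f v → ∀ i, i < n₀ → a (u - i) = a (v - i) := by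
    intro u v hu hv huv i hi
    have h1 := congrFun huv ⟨i, hi⟩
    simp only [hf, decide_eq_decide] at h1
    have h2 := ha (u - i) (by have := (hS u hu).2; omega)
    have h3 := ha (v - i) (by have := (hS v hv).2; omega)
    rcases h2 with h2 | h2
    · rw [h2, h1.mp h2]
    · rcases h3 with h3 | h3
      · exact absurd (h1.mpr h3) (by rw [h2]; norm_num)
      · rw [h2, h3]
  rcases lt_or_gt_of_ne hxy with hlt | hlt
  · exact ⟨x, hx, y, hy, hlt, hequal x y hx hy hfxy⟩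
  · exact ⟨y, hy, x, hx, hlt, hequal y x hy hx hfxy.symm⟩

lemma periodic_of_same {l g n₁ : ℕ} (hsame : ∀ i, i ≤ n₁ → i ≤ l → a (l - i) = a (l + g - i))
    {x : ℕ} (hx : l ≤ x + n₁) (j : ℕ) (hj : x + j * g ≤ l + g) :
    a x = a (x + j * g) := by
  induction j with
  | zero => simp
  | succ j ih =>
    have h1 : x + (j + 1) * g = x + j * g + g := by ring
    rw [h1] at hj ⊢
    have h2 : x + j * g ≤ l := by omega
    rw [ih (by omega)]
    have h3 := hsame (l - (x + j * g)) (by omega) (by omega)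
    have h4 : l - (l - (x + j * g)) = x + j * g := by omega
    have h5 : l + g - (l - (x + j * g)) = x + j * g + g := by omega
    rw [h4, h5] at h3
    exact h3

open Classical in
/-- if few positions are bad, there is local periodicity at the factorial lag. -/
lemma agree_of_few_bad {F : ℕ → ℂ[X]} (hF : ∀ n, (F n).Monic ∧ (F n).natDegree = n)
    (ha : IsLittlewood a N) {n₀ b₀ G σ n₁ z : ℕ} (hb₀ : b₀ = 2 ^ (n₀ + 1)) (hG : G = b₀.factorial)
    (hσ : σ = G + b₀) (hn₁ : n₁ = G + 2 * b₀) (hz : n₁ ≤ z) (hzN : z + b₀ ≤ N)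
    (hfew : 2 * ((Finset.Ico z (z + b₀)).filter (fun l => isBad F a n₀ n₁ l)).card < b₀) :
    a (z - σ) = a (z - σ + G) := by
  have hb₀pos : 0 < b₀ := by rw [hb₀]; positivity
  have hn₀n₁ : n₀ ≤ n₁ := by
    have h1 : n₀ + 1 < 2 ^ (n₀ + 1) := Nat.lt_two_pow_self
    rw [hn₁, ← hb₀] at *
    omega
  set S := (Finset.Ico z (z + b₀)).filter (fun l => ¬ isBad F a n₀ n₁ l) with hS
  have hcardS : S.card + ((Finset.Ico z (z + b₀)).filter (fun l => isBad F a n₀ n₁ l)).card = b₀ := by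
    rw [hS, add_comm, Finset.card_filter_add_card_filter_not]
    simp
  have hcard : 2 ^ n₀ < S.card := by
    have h2 : b₀ = 2 * 2 ^ n₀ := by rw [hb₀, pow_succ]; ring
    omega
  have hSprop : ∀ l ∈ S, n₀ ≤ l ∧ l < N := by
    intro l hl
    have h1 := Finset.mem_Ico.mp (Finset.mem_filter.mp hl).1
    constructor <;> omega
  obtain ⟨l, hl, l', hl', hll', hsuf⟩ := exists_same_suffix ha S hSprop hcard
  have hlI := Finset.mem_Ico.mp (Finset.mem_filter.mp hl).1
  have hlI' := Finset.mem_Ico.mp (Finset.mem_filter.mp hl').1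
  have hlnb := (Finset.mem_filter.mp hl).2
  have hlnb' := (Finset.mem_filter.mp hl').2
  have hgood : ∀ x, ¬ isBad F a n₀ n₁ x → ∀ n, n₀ ≤ n → n ≤ n₁ → ‖perr F a n x‖ < 1 := by
    intro x hx n h1 h2
    by_contra hc
    exact hx ⟨n, h1, h2, not_lt.mp hc⟩
  have hall := det_all hF ha (n₀ := n₀) (n₁ := n₁) (l := l) (l' := l') (by omega) (by omega)
    (by omega) (by omega) (hgood l hlnb) (hgood l' hlnb') hsuf
  set g := l' - l with hg
  have hl'eq : l' = l + g := by omega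
  have hg1 : 1 ≤ g := by omega
  have hg2 : g < b₀ := by omega
  have hdvd : g ∣ G := by
    rw [hG]
    exact Nat.dvd_factorial hg1 hg2.le
  obtain ⟨j, hj⟩ := hdvd
  have hsame : ∀ i, i ≤ n₁ → i ≤ l → a (l - i) = a (l + g - i) := by
    intro i hi _
    rw [← hl'eq]
    exact hall i hi
  have hmain := periodic_of_same hsame (x := z - σ) (by omega) j (by
    have : j * g = G := by rw [hj]; ring
    omega)
  have h3 : j * g = G := by rw [hj]; ring
  rwa [h3] at hmain

end det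

end Vale.Agent.Lib.P110
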