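import Vale.Agent.Lib.P110.Gap2

namespace Vale.Agent.Lib.P110

open Polynomial Finset

lemma norm_cpt_sub_one_sq (x : ℝ) : ‖cpt x - 1‖ ^ 2 = 2 * (1 - Real.cos x) := by
  have h1 : cpt x = (Real.cos x : ℂ) + (Real.sin x : ℂ) * Complex.I := by
    unfold cpt
    rw [mul_comm, Complex.exp_mul_I]
    push_cast
    ring
  rw [Complex.sq_norm, Complex.normSq_apply, h1]
  simp only [Complex.sub_re, Complex.add_re, Complex.ofReal_re, Complex.mul_re, Complex.I_re,
    mul_zero, Complex.ofReal_im, Complex.I_im, mul_one, sub_self, add_zero, Complex.one_re,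
    Complex.sub_im, Complex.add_im, Complex.mul_im, zero_add, Complex.one_im, sub_zero]
  nlinarith [Real.sin_sq_add_cos_sq x]

lemma norm_pow_sub_one_le {z : ℂ} (hz : ‖z‖ = 1) (j : ℕ) : ‖z ^ j - 1‖ ≤ j * ‖z - 1‖ := by
  induction j with
  | zero => simp
  | succ j ih =>
    have h1 : z ^ (j + 1) - 1 = z * (z ^ j - 1) + (z - 1) := by ring
    rw [h1]
    refine le_trans (norm_add_le _ _) ?_
    rw [norm_mul, hz, one_mul]
    push_cast
    linarith

/-- The grid points on which `e^{iGθ}` is close to `1` are few. -/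
lemma small_ball_count (G n₂ T : ℕ) (hG : 0 < G) (hn₂ : 0 < n₂) (hT : n₂ * G < T) :
    (((range T).filter (fun u => ‖cpt (gridPt T u) ^ G - 1‖ ≤ 1 / (2 * (n₂ : ℝ)))).card : ℝ) ≤
      4 * T / n₂ := by
  classical
  have hn₂R : (0 : ℝ) < n₂ := by exact_mod_cast hn₂
  have hpar := grid_parseval_exps (fun _ => (1 : ℂ)) (fun j => j * G) n₂ T
    (fun j hj => by
      have : j * G < n₂ * G := Nat.mul_lt_mul_of_pos_right hj hG
      show j * G < T
      omega)
    (fun j _ j' _ hjj => Nat.eq_of_mul_eq_mul_right hG hjj)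
  simp only [one_mul, norm_one, one_pow, sum_const, card_range, nsmul_eq_mul, mul_one] at hpar
  set Sm := (range T).filter (fun u => ‖cpt (gridPt T u) ^ G - 1‖ ≤ 1 / (2 * (n₂ : ℝ))) with hSm
  have hlow : ∀ u ∈ Sm, ((n₂ : ℝ) / 2) ^ 2 ≤ ‖∑ j ∈ range n₂, cpt (gridPt T u) ^ (j * G)‖ ^ 2 := by
    intro u hu
    have hu' := (Finset.mem_filter.mp hu).2
    set z := cpt (gridPt T u) ^ G with hz
    have hzn : ‖z‖ = 1 := by rw [hz, norm_pow, norm_cpt, one_pow]
    have h1 : ∀ j ∈ range n₂, ‖cpt (gridPt T u) ^ (j * G) - 1‖ ≤ 1 / 2 := by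
      intro j hj
      have hj' : (j : ℝ) ≤ n₂ := by
        exact_mod_cast (Finset.mem_range.mp hj).le
      rw [mul_comm j G, pow_mul, ← hz]
      refine le_trans (norm_pow_sub_one_le hzn j) ?_
      calc (j : ℝ) * ‖z - 1‖ ≤ n₂ * (1 / (2 * (n₂ : ℝ))) := by gcongr
        _ = 1 / 2 := by field_simp
    have h2 : ‖∑ j ∈ range n₂, cpt (gridPt T u) ^ (j * G) - (n₂ : ℂ)‖ ≤ n₂ * (1 / 2) := by
      have h3 : ∑ j ∈ range n₂, cpt (gridPt T u) ^ (j * G) - (n₂ : ℂ) =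
          ∑ j ∈ range n₂, (cpt (gridPt T u) ^ (j * G) - 1) := by
        rw [Finset.sum_sub_distrib]
        simp
      rw [h3]
      refine le_trans (norm_sum_le _ _) ?_
      calc _ ≤ ∑ j ∈ range n₂, (1 / 2 : ℝ) := Finset.sum_le_sum h1
        _ = _ := by simp
    have h4 : (n₂ : ℝ) / 2 ≤ ‖∑ j ∈ range n₂, cpt (gridPt T u) ^ (j * G)‖ := by
      have h5 := norm_sub_norm_le ((n₂ : ℂ)) (∑ j ∈ range n₂, cpt (gridPt T u) ^ (j * G))
      rw [norm_sub_rev] at h5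
      rw [Complex.norm_natCast] at h5
      linarith
    exact pow_le_pow_left₀ (by positivity) h4 2
  have hsum : (Sm.card : ℝ) * ((n₂ : ℝ) / 2) ^ 2 ≤ (T : ℝ) * n₂ := by
    calc (Sm.card : ℝ) * ((n₂ : ℝ) / 2) ^ 2 = ∑ u ∈ Sm, ((n₂ : ℝ) / 2) ^ 2 := by
          rw [Finset.sum_const, nsmul_eq_mul]
      _ ≤ ∑ u ∈ Sm, ‖∑ j ∈ range n₂, cpt (gridPt T u) ^ (j * G)‖ ^ 2 := Finset.sum_le_sum hlow
      _ ≤ ∑ u ∈ range T, ‖∑ j ∈ range n₂, cpt (gridPt T u) ^ (j * G)‖ ^ 2 := by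
          refine Finset.sum_le_sum_of_subset_of_nonneg (Finset.filter_subset _ _) ?_
          intro _ _ _
          positivity
      _ = _ := hpar
  rw [le_div_iff₀ hn₂R]
  have h6 : (Sm.card : ℝ) * ((n₂ : ℝ) / 2) ^ 2 = ((Sm.card : ℝ) * n₂) * n₂ / 4 := by ring
  rw [h6] at hsum
  have h7 : ((Sm.card : ℝ) * n₂) * n₂ ≤ (4 * T) * n₂ := by linarith
  exact le_of_mul_le_mul_right h7 hn₂R

/-- Lower bound for the defect in terms of the sup bound on the polynomial. -/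
lemma defect_lower (y : ℕ → ℝ) (N T G n₂ : ℕ) {D : ℝ} (hG : 0 < G) (hn₂ : 0 < n₂)
    (hT : n₂ * G < T) (hT2 : N + G < T)
    (hsup : ∀ u ∈ range T, ‖Ypoly y N (gridPt T u)‖ ^ 2 ≤ D) :
    (1 / (8 * (n₂ : ℝ) ^ 2)) * (∑ k ∈ range N, y k ^ 2 - 4 * D / n₂) ≤
      ∑ k ∈ range N, y k ^ 2 - ∑ k ∈ range (N - G), y k * y (k + G) := by
  classical
  have hn₂R : (0 : ℝ) < n₂ := by exact_mod_cast hn₂
  have hTR : (0 : ℝ) < T := by
    have : 0 < T := by omega
    exact_mod_cast this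
  have hD : 0 ≤ D ∨ T = 0 := by
    left
    exact le_trans (by positivity) (hsup 0 (Finset.mem_range.mpr (by omega)))
  have hD0 : 0 ≤ D := by
    rcases hD with h | h
    · exact h
    · omega
  have hpar := grid_parseval y N T (by omega)
  have hcor := grid_corr y N T G hT2
  set κ : ℝ := 1 / (8 * (n₂ : ℝ) ^ 2) with hκ
  have hκ0 : 0 < κ := by positivity
  set Sm := (range T).filter (fun u => ‖cpt (gridPt T u) ^ G - 1‖ ≤ 1 / (2 * (n₂ : ℝ))) with hSm
  have hcard := small_ball_count G n₂ T hG hn₂ hT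
  rw [← hSm] at hcard
  -- pointwise
  have hpt : ∀ u ∈ range T, κ * ‖Ypoly y N (gridPt T u)‖ ^ 2 -
      (if u ∈ Sm then κ * D else 0) ≤
      ‖Ypoly y N (gridPt T u)‖ ^ 2 * (1 - Real.cos ((G : ℝ) * gridPt T u)) := by
    intro u hu
    have hc1 : 0 ≤ 1 - Real.cos ((G : ℝ) * gridPt T u) := by
      linarith [Real.cos_le_one ((G : ℝ) * gridPt T u)]
    split_ifs with hus
    · have h1 := hsup u hu
      have h2 : κ * ‖Ypoly y N (gridPt T u)‖ ^ 2 ≤ κ * D := by gcongr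
      have h3 : 0 ≤ ‖Ypoly y N (gridPt T u)‖ ^ 2 * (1 - Real.cos ((G : ℝ) * gridPt T u)) := by
        positivity
      linarith
    · have h1 : 1 / (2 * (n₂ : ℝ)) < ‖cpt (gridPt T u) ^ G - 1‖ := by
        by_contra hc
        exact hus (Finset.mem_filter.mpr ⟨hu, not_lt.mp hc⟩)
      have h2 : cpt (gridPt T u) ^ G = cpt ((G : ℝ) * gridPt T u) := by
        rw [cpt_pow]
        unfold cpt
        congr 1
        push_cast
        ring
      rw [h2] at h1
      have h3 := norm_cpt_sub_one_sq ((G : ℝ) * gridPt T u)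
      have h4 : (1 / (2 * (n₂ : ℝ))) ^ 2 ≤ ‖cpt ((G : ℝ) * gridPt T u) - 1‖ ^ 2 :=
        pow_le_pow_left₀ (by positivity) h1.le 2
      have h5 : κ ≤ 1 - Real.cos ((G : ℝ) * gridPt T u) := by
        rw [h3] at h4
        have h6 : (1 / (2 * (n₂ : ℝ))) ^ 2 = 2 * κ := by
          rw [hκ]
          field_simp
          norm_num
        rw [h6] at h4
        linarith
      have h7 : 0 ≤ ‖Ypoly y N (gridPt T u)‖ ^ 2 := by positivity
      nlinarith
  have hsum := Finset.sum_le_sum hpt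
  rw [Finset.sum_sub_distrib, ← Finset.mul_sum, hpar] at hsum
  have hif : ∑ u ∈ range T, (if u ∈ Sm then κ * D else 0) = (Sm.card : ℝ) * (κ * D) := by
    rw [Finset.sum_ite_mem]
    have : range T ∩ Sm = Sm := Finset.inter_eq_right.mpr (Finset.filter_subset _ _)
    rw [this, Finset.sum_const, nsmul_eq_mul]
  rw [hif] at hsum
  have hrhs : ∑ u ∈ range T, ‖Ypoly y N (gridPt T u)‖ ^ 2 *
      (1 - Real.cos ((G : ℝ) * gridPt T u)) =
      (T : ℝ) * (∑ k ∈ range N, y k ^ 2 - ∑ k ∈ range (N - G), y k * y (k + G)) := by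
    have h1 : ∀ u ∈ range T, ‖Ypoly y N (gridPt T u)‖ ^ 2 *
        (1 - Real.cos ((G : ℝ) * gridPt T u)) = ‖Ypoly y N (gridPt T u)‖ ^ 2 -
        ‖Ypoly y N (gridPt T u)‖ ^ 2 * Real.cos ((G : ℝ) * gridPt T u) := by
      intro u _
      ring
    rw [Finset.sum_congr rfl h1, Finset.sum_sub_distrib, hpar, hcor]
    ring
  rw [hrhs] at hsum
  have h8 : (Sm.card : ℝ) * (κ * D) ≤ (4 * T / n₂) * (κ * D) := by
    gcongr
  refine le_of_mul_le_mul_left ?_ hTR
  have h9 : (4 * T / (n₂ : ℝ)) * (κ * D) = (T : ℝ) * (κ * (4 * D / n₂)) := by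
    field_simp
  calc (T : ℝ) * (κ * (∑ k ∈ range N, y k ^ 2 - 4 * D / n₂))
      = κ * ((T : ℝ) * ∑ k ∈ range N, y k ^ 2) - (T : ℝ) * (κ * (4 * D / n₂)) := by ring
    _ ≤ _ := by linarith

section window

variable {a : ℕ → ℤ} {N : ℕ} {w : ℕ → ℝ} {Lip : ℝ}

/-- the windowed sequence. -/
def winSeq (w : ℕ → ℝ) (a : ℕ → ℤ) : ℕ → ℝ := fun k => w k * (a k : ℝ)

lemma a_sq_eq_one (ha : IsLittlewood a N) {k : ℕ} (hk : k < N) : ((a k : ℤ) : ℝ) ^ 2 = 1 := by
  rcases ha k hk with h | h <;> rw [h] <;> norm_num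

lemma abs_a_eq_one (ha : IsLittlewood a N) {k : ℕ} (hk : k < N) : |((a k : ℤ) : ℝ)| = 1 := by
  rcases ha k hk with h | h <;> rw [h] <;> norm_num

lemma sum_winSeq_sq (ha : IsLittlewood a N) :
    ∑ k ∈ range N, winSeq w a k ^ 2 = ∑ k ∈ range N, w k ^ 2 := by
  refine Finset.sum_congr rfl fun k hk => ?_
  unfold winSeq
  rw [mul_pow, a_sq_eq_one ha (Finset.mem_range.mp hk), mul_one]

/-- the disagreement indicator -/
noncomputable def disInd (a : ℕ → ℤ) (G x : ℕ) : ℝ := if a x ≠ a (x + G) then 1 else 0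

lemma lip_bound (hLip : ∀ k k' : ℕ, |w k - w k'| ≤ Lip * |(k : ℝ) - k'| / N) (hNpos : 0 < N)
    (hLip0 : 0 ≤ Lip) {x G : ℕ} :
    |w x - w (x + G)| ≤ Lip * G / N := by
  have h := hLip x (x + G)
  have h2 : |(x : ℝ) - ((x + G : ℕ) : ℝ)| = G := by
    push_cast
    have : (x : ℝ) - (x + G) = -(G : ℝ) := by ring
    rw [this, abs_neg, abs_of_nonneg (Nat.cast_nonneg _)]
  rwa [h2] at h

/-- upper bound for the defect by the weighted disagreement. -/
lemma defect_upper (ha : IsLittlewood a N) (hw : ∀ k, |w k| ≤ 1)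
    (hLip : ∀ k k' : ℕ, |w k - w k'| ≤ Lip * |(k : ℝ) - k'| / N) (hLip0 : 0 ≤ Lip)
    {G : ℕ} (hG : G < N) :
    ∑ k ∈ range N, winSeq w a k ^ 2 - ∑ k ∈ range (N - G), winSeq w a k * winSeq w a (k + G) ≤
      2 * ∑ x ∈ range (N - G), w x ^ 2 * disInd a G x + (Lip + 1) * G := by
  have hNpos : 0 < N := by omega
  have hNR : (0 : ℝ) < N := by exact_mod_cast hNpos
  rw [sum_winSeq_sq ha]
  have hsplit : ∑ k ∈ range N, w k ^ 2 = ∑ k ∈ range (N - G), w k ^ 2 +
      ∑ k ∈ Finset.Ico (N - G) N, w k ^ 2 := by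
    rw [Finset.sum_range_add_sum_Ico]
    omega
  have htop : ∑ k ∈ Finset.Ico (N - G) N, w k ^ 2 ≤ G := by
    calc _ ≤ ∑ k ∈ Finset.Ico (N - G) N, (1 : ℝ) := by
          refine Finset.sum_le_sum fun k _ => ?_
          have := sq_le_sq' (by linarith [abs_le.mp (hw k)]) (abs_le.mp (hw k)).2
          simpa using this
      _ = G := by
        simp only [sum_const, Nat.card_Ico, nsmul_eq_mul, mul_one]
        have : N - (N - G) = G := by omega
        rw [this]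
  have hpt : ∀ x ∈ range (N - G), w x ^ 2 - winSeq w a x * winSeq w a (x + G) ≤
      2 * (w x ^ 2 * disInd a G x) + Lip * G / N := by
    intro x hx
    have hx' := Finset.mem_range.mp hx
    have h1 := lip_bound hLip hNpos hLip0 (x := x) (G := G)
    have h2 := hw x
    have hax := ha x (by omega)
    have hay := ha (x + G) (by omega)
    have h3 : |w x * (w x - w (x + G))| ≤ Lip * G / N := by
      rw [abs_mul]
      calc |w x| * |w x - w (x + G)| ≤ 1 * (Lip * G / N) := by gcongr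
        _ = _ := one_mul _
    have h4 := abs_le.mp h3
    unfold winSeq disInd
    rcases hax with hax | hax <;> rcases hay with hay | hay <;> rw [hax, hay] <;> norm_num <;>
      nlinarith
  have hsum := Finset.sum_le_sum hpt
  rw [Finset.sum_sub_distrib, Finset.sum_add_distrib, ← Finset.mul_sum] at hsum
  simp only [sum_const, card_range, nsmul_eq_mul] at hsum
  have h5 : ((N - G : ℕ) : ℝ) * (Lip * G / N) ≤ Lip * G := by
    have h6 : ((N - G : ℕ) : ℝ) ≤ N := by exact_mod_cast Nat.sub_le N G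
    calc ((N - G : ℕ) : ℝ) * (Lip * G / N) ≤ N * (Lip * G / N) := by gcongr
      _ = Lip * G := by field_simp
  rw [hsplit]
  linarith

/-- passing from the windowed convolution to the plain one. -/
lemma conv_diff_le (ha : IsLittlewood a N)
    (hLip : ∀ k k' : ℕ, |w k - w k'| ≤ Lip * |(k : ℝ) - k'| / N) (hLip0 : 0 ≤ Lip)
    {Q : ℂ[X]} {n l : ℕ} {β : ℝ} (hβ : ∀ i, ‖Q.coeff i‖ ≤ β) (hnl : n ≤ l) (hl : l < N) :
    ‖(w l : ℂ) * conv Q n (fun k => (a k : ℂ)) l - conv Q n (fun k => (winSeq w a k : ℂ)) l‖ ≤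
      (n + 1) * (β * (Lip * n / N)) := by
  have hβ0 : 0 ≤ β := le_trans (norm_nonneg _) (hβ 0)
  have hNR : (0 : ℝ) ≤ N := Nat.cast_nonneg _
  unfold conv
  rw [Finset.mul_sum, ← Finset.sum_sub_distrib]
  refine le_trans (norm_sum_le _ _) ?_
  have hpt : ∀ i ∈ range (n + 1), ‖(w l : ℂ) * (Q.coeff i * (a (l - i) : ℂ)) -
      Q.coeff i * (winSeq w a (l - i) : ℂ)‖ ≤ β * (Lip * n / N) := by
    intro i hi
    have hi' := Finset.mem_range.mp hi
    have h1 : (w l : ℂ) * (Q.coeff i * (a (l - i) : ℂ)) - Q.coeff i * (winSeq w a (l - i) : ℂ) =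
        Q.coeff i * (((w l - w (l - i)) * (a (l - i) : ℝ) : ℝ) : ℂ) := by
      unfold winSeq
      push_cast
      ring
    rw [h1, norm_mul, Complex.norm_real, Real.norm_eq_abs, abs_mul,
      abs_a_eq_one ha (by omega), mul_one]
    have h2 := hLip l (l - i)
    have h3 : |((l : ℝ) - ((l - i : ℕ) : ℝ))| ≤ n := by
      rw [Nat.cast_sub (by omega)]
      have : (l : ℝ) - ((l : ℝ) - i) = i := by ring
      rw [this, abs_of_nonneg (Nat.cast_nonneg _)]
      exact_mod_cast (by omega : i ≤ n)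
    have h4 : |w l - w (l - i)| ≤ Lip * n / N := by
      refine le_trans h2 ?_
      gcongr
    gcongr
    exact hβ i
  calc _ ≤ ∑ i ∈ range (n + 1), β * (Lip * n / N) := Finset.sum_le_sum hpt
    _ = _ := by
      simp only [sum_const, card_range, nsmul_eq_mul]
      push_cast
      ring

/-- the weighted residual in terms of the windowed convolution -/
lemma weighted_residual_le (ha : IsLittlewood a N)
    (hLip : ∀ k k' : ℕ, |w k - w k'| ≤ Lip * |(k : ℝ) - k'| / N) (hLip0 : 0 ≤ Lip)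
    {Q : ℂ[X]} {n l : ℕ} {β : ℝ} (hβ : ∀ i, ‖Q.coeff i‖ ≤ β) (hnl : n ≤ l) (hl : l < N) :
    w l ^ 2 * ‖conv Q n (fun k => (a k : ℂ)) l‖ ^ 2 ≤
      2 * ‖conv Q n (fun k => (winSeq w a k : ℂ)) l‖ ^ 2 +
        2 * ((n + 1) * (β * (Lip * n / N))) ^ 2 := by
  have h1 := conv_diff_le ha hLip hLip0 hβ hnl hl
  set A := (w l : ℂ) * conv Q n (fun k => (a k : ℂ)) l with hA
  set B := conv Q n (fun k => (winSeq w a k : ℂ)) l with hB
  have h2 : w l ^ 2 * ‖conv Q n (fun k => (a k : ℂ)) l‖ ^ 2 = ‖A‖ ^ 2 := by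
    rw [hA, norm_mul, Complex.norm_real, Real.norm_eq_abs, mul_pow, sq_abs]
  rw [h2]
  have h3 : ‖A‖ ≤ ‖B‖ + (n + 1) * (β * (Lip * n / N)) := by
    have h4 : A = B + (A - B) := by ring
    calc ‖A‖ = ‖B + (A - B)‖ := by rw [← h4]
      _ ≤ ‖B‖ + ‖A - B‖ := norm_add_le _ _
      _ ≤ _ := by linarith
  set e := (n + 1) * (β * (Lip * n / N)) with he
  have h5 : 0 ≤ ‖A‖ := norm_nonneg _
  have h6 : 0 ≤ ‖B‖ := norm_nonneg _
  have h7 : ‖A‖ ^ 2 ≤ (‖B‖ + e) ^ 2 := pow_le_pow_left₀ h5 h3 2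
  nlinarith [sq_nonneg (‖B‖ - e)]

end window

end Vale.Agent.Lib.P110
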