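import Vale.Agent.Lib.P110.Gap3

namespace Vale.Agent.Lib.P110

open Polynomial Finset

section sliding

variable {a : ℕ → ℤ} {N : ℕ} {w : ℕ → ℝ} {Lip : ℝ}

lemma sq_diff_le (hw : ∀ k, |w k| ≤ 1)
    (hLip : ∀ k k' : ℕ, |w k - w k'| ≤ Lip * |(k : ℝ) - k'| / N) (hLip0 : 0 ≤ Lip)
    {x l : ℕ} {R : ℝ} (hR : |(x : ℝ) - l| ≤ R) : w x ^ 2 ≤ w l ^ 2 + 2 * (Lip * R / N) := by
  have h1 : |w x - w l| ≤ Lip * R / N := by
    refine le_trans (hLip x l) ?_
    gcongr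
  have h2 := abs_le.mp (hw x)
  have h3 := abs_le.mp (hw l)
  have h4 := abs_le.mp h1
  have h5 : w x ^ 2 - w l ^ 2 = (w x - w l) * (w x + w l) := by ring
  have h6 : |(w x - w l) * (w x + w l)| ≤ (Lip * R / N) * 2 := by
    rw [abs_mul]
    have h7 : |w x + w l| ≤ 2 := by
      rw [abs_le]; constructor <;> linarith
    have h70 : 0 ≤ Lip * R / N := le_trans (abs_nonneg _) h1
    gcongr
  have h8 := abs_le.mp h6
  linarith [h8.2]

open Classical in
lemma sliding (hw : ∀ k, |w k| ≤ 1)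
    (hLip : ∀ k k' : ℕ, |w k - w k'| ≤ Lip * |(k : ℝ) - k'| / N) (hLip0 : 0 ≤ Lip)
    {b₀ σ n₁ G : ℕ} {bad : ℕ → Prop} (hb₀ : 0 < b₀) (hσ : σ ≤ n₁) (hN2 : n₁ + b₀ ≤ N)
    (H : ∀ z, n₁ ≤ z → z + b₀ ≤ N → a (z - σ) ≠ a (z - σ + G) →
      b₀ ≤ 2 * ((Finset.Ico z (z + b₀)).filter bad).card) :
    ∑ z ∈ Finset.Ico n₁ (N - b₀ + 1), w (z - σ) ^ 2 * disInd a G (z - σ) ≤
      2 * ∑ l ∈ Finset.Ico n₁ N, w l ^ 2 * (if bad l then 1 else 0) + 4 * (Lip * (σ + b₀)) := by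
  have hNpos : 0 < N := by omega
  have hNR : (0 : ℝ) < N := by exact_mod_cast hNpos
  have hb₀R : (0 : ℝ) < b₀ := by exact_mod_cast hb₀
  set e' : ℝ := 2 * (Lip * ((σ : ℝ) + b₀) / N) with he'
  have he'0 : 0 ≤ e' := by positivity
  set ind : ℕ → ℝ := fun l => if bad l then 1 else 0 with hind
  have hind0 : ∀ l, 0 ≤ ind l := by
    intro l
    simp only [hind]
    split_ifs <;> norm_num
  set g : ℕ → ℝ := fun l => (w l ^ 2 + e') * ind l with hg
  have hg0 : ∀ l, 0 ≤ g l := fun l => mul_nonneg (by positivity) (hind0 l)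
  have hpt : ∀ z ∈ Finset.Ico n₁ (N - b₀ + 1), w (z - σ) ^ 2 * disInd a G (z - σ) ≤
      (2 / (b₀ : ℝ)) * ∑ i ∈ range b₀, g (z + i) := by
    intro z hz
    have hz' := Finset.mem_Ico.mp hz
    have hRHS : 0 ≤ (2 / (b₀ : ℝ)) * ∑ i ∈ range b₀, g (z + i) :=
      mul_nonneg (by positivity) (Finset.sum_nonneg fun i _ => hg0 _)
    unfold disInd
    split_ifs with hne
    · have hc := H z hz'.1 (by omega) hne
      have hcnt : (((Finset.Ico z (z + b₀)).filter bad).card : ℝ) = ∑ i ∈ range b₀, ind (z + i) := by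
        have h1 : ((Finset.Ico z (z + b₀)).filter bad).card =
            ∑ l ∈ Finset.Ico z (z + b₀), if bad l then 1 else 0 := by
          rw [Finset.card_filter]
        rw [h1, Finset.sum_Ico_eq_sum_range]
        simp only [add_tsub_cancel_left]
        push_cast
        rfl
      have hlow : ∀ i ∈ range b₀, w (z - σ) ^ 2 * ind (z + i) ≤ g (z + i) := by
        intro i hi
        have hi' := Finset.mem_range.mp hi
        have hR : |((z - σ : ℕ) : ℝ) - ((z + i : ℕ) : ℝ)| ≤ (σ : ℝ) + b₀ := by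
          have hzσ : σ ≤ z := by omega
          rw [Nat.cast_sub hzσ]
          push_cast
          have : (z : ℝ) - σ - (z + i) = -((σ : ℝ) + i) := by ring
          rw [this, abs_neg, abs_of_nonneg (by positivity)]
          have : (i : ℝ) ≤ b₀ := by exact_mod_cast hi'.le
          linarith
        have h2 := sq_diff_le hw hLip hLip0 hR
        simp only [hg]
        exact mul_le_mul_of_nonneg_right h2 (hind0 _)
      have hsumlow : w (z - σ) ^ 2 * ((((Finset.Ico z (z + b₀)).filter bad).card : ℝ)) ≤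
          ∑ i ∈ range b₀, g (z + i) := by
        rw [hcnt, Finset.mul_sum]
        exact Finset.sum_le_sum hlow
      have hcR : (b₀ : ℝ) ≤ 2 * (((Finset.Ico z (z + b₀)).filter bad).card : ℝ) := by
        exact_mod_cast hc
      have hw2 : 0 ≤ w (z - σ) ^ 2 := by positivity
      rw [mul_one, div_mul_eq_mul_div, le_div_iff₀ hb₀R]
      nlinarith
    · rw [mul_zero]
      exact hRHS
  have hsum := Finset.sum_le_sum hpt
  rw [← Finset.mul_sum, Finset.sum_comm] at hsum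
  have hinner : ∀ i ∈ range b₀, ∑ z ∈ Finset.Ico n₁ (N - b₀ + 1), g (z + i) ≤
      ∑ l ∈ Finset.Ico n₁ N, g l := by
    intro i hi
    have hi' := Finset.mem_range.mp hi
    rw [Finset.sum_Ico_add']
    refine Finset.sum_le_sum_of_subset_of_nonneg ?_ (fun l _ _ => hg0 l)
    intro l hl
    have hl' := Finset.mem_Ico.mp hl
    rw [Finset.mem_Ico]
    omega
  have h3 : ∑ i ∈ range b₀, ∑ z ∈ Finset.Ico n₁ (N - b₀ + 1), g (z + i) ≤
      (b₀ : ℝ) * ∑ l ∈ Finset.Ico n₁ N, g l := by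
    calc _ ≤ ∑ i ∈ range b₀, ∑ l ∈ Finset.Ico n₁ N, g l := Finset.sum_le_sum hinner
      _ = _ := by simp
  have h4 : ∑ l ∈ Finset.Ico n₁ N, g l ≤
      ∑ l ∈ Finset.Ico n₁ N, w l ^ 2 * ind l + 2 * (Lip * ((σ : ℝ) + b₀)) := by
    have h5 : ∀ l ∈ Finset.Ico n₁ N, g l ≤ w l ^ 2 * ind l + e' := by
      intro l _
      simp only [hg, hind]
      split_ifs
      · linarith
      · simp only [mul_zero]
        linarith
    calc _ ≤ ∑ l ∈ Finset.Ico n₁ N, (w l ^ 2 * ind l + e') := Finset.sum_le_sum h5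
      _ = ∑ l ∈ Finset.Ico n₁ N, w l ^ 2 * ind l + ((N - n₁ : ℕ) : ℝ) * e' := by
        rw [Finset.sum_add_distrib]
        simp
      _ ≤ _ := by
        have h6 : ((N - n₁ : ℕ) : ℝ) ≤ N := by exact_mod_cast Nat.sub_le N n₁
        have h7 : (N : ℝ) * e' = 2 * (Lip * ((σ : ℝ) + b₀)) := by
          rw [he']
          field_simp
        have h8 : ((N - n₁ : ℕ) : ℝ) * e' ≤ (N : ℝ) * e' := by gcongr
        linarith
  have h9 : (2 / (b₀ : ℝ)) * ∑ i ∈ range b₀, ∑ z ∈ Finset.Ico n₁ (N - b₀ + 1), g (z + i) ≤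
      2 * ∑ l ∈ Finset.Ico n₁ N, g l := by
    calc _ ≤ (2 / (b₀ : ℝ)) * ((b₀ : ℝ) * ∑ l ∈ Finset.Ico n₁ N, g l) := by gcongr
      _ = _ := by field_simp
  linarith

/-- splitting the full weighted disagreement -/
lemma dis_full_le (hw : ∀ k, |w k| ≤ 1) {b₀ σ n₁ G : ℕ} (hb₀ : 0 < b₀) (hσ : σ + b₀ = n₁)
    (hσG : σ = G + b₀)
    (hN : n₁ + b₀ + 1 ≤ N) :
    ∑ x ∈ range (N - G), w x ^ 2 * disInd a G x ≤
      3 * (b₀ : ℝ) + ∑ z ∈ Finset.Ico n₁ (N - b₀ + 1), w (z - σ) ^ 2 * disInd a G (z - σ) := by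
  have hle1 : ∀ x, w x ^ 2 * disInd a G x ≤ 1 := by
    intro x
    have h1 : w x ^ 2 ≤ 1 := by
      have := sq_le_sq' (by linarith [abs_le.mp (hw x)]) (abs_le.mp (hw x)).2
      simpa using this
    have h2 : 0 ≤ w x ^ 2 := by positivity
    unfold disInd
    split_ifs <;> nlinarith
  have hre : ∑ z ∈ Finset.Ico n₁ (N - b₀ + 1), w (z - σ) ^ 2 * disInd a G (z - σ) =
      ∑ x ∈ Finset.Ico b₀ (N - b₀ + 1 - σ), w x ^ 2 * disInd a G x := by
    have h1 : b₀ + σ = n₁ := by omega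
    have h2 : N - b₀ + 1 - σ + σ = N - b₀ + 1 := by omega
    have h3 := Finset.sum_Ico_add' (fun x => w (x - σ) ^ 2 * disInd a G (x - σ)) b₀
      (N - b₀ + 1 - σ) σ
    rw [h1, h2] at h3
    rw [← h3]
    refine Finset.sum_congr rfl fun x _ => ?_
    simp
  rw [hre]
  have hsplit : range (N - G) = range b₀ ∪ (Finset.Ico b₀ (N - b₀ + 1 - σ) ∪
      Finset.Ico (N - b₀ + 1 - σ) (N - G)) := by
    ext x
    simp only [Finset.mem_range, Finset.mem_union, Finset.mem_Ico]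
    omega
  have hd1 : Disjoint (range b₀) (Finset.Ico b₀ (N - b₀ + 1 - σ) ∪
      Finset.Ico (N - b₀ + 1 - σ) (N - G)) := by
    rw [Finset.disjoint_left]
    intro x hx hx2
    simp only [Finset.mem_range, Finset.mem_union, Finset.mem_Ico] at hx hx2
    omega
  have hd2 : Disjoint (Finset.Ico b₀ (N - b₀ + 1 - σ)) (Finset.Ico (N - b₀ + 1 - σ) (N - G)) := by
    rw [Finset.disjoint_left]
    intro x hx hx2
    simp only [Finset.mem_Ico] at hx hx2
    omega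
  rw [hsplit, Finset.sum_union hd1, Finset.sum_union hd2]
  have h1 : ∑ x ∈ range b₀, w x ^ 2 * disInd a G x ≤ b₀ := by
    calc _ ≤ ∑ x ∈ range b₀, (1 : ℝ) := Finset.sum_le_sum fun x _ => hle1 x
      _ = _ := by simp
  have h2 : ∑ x ∈ Finset.Ico (N - b₀ + 1 - σ) (N - G), w x ^ 2 * disInd a G x ≤ 2 * (b₀ : ℝ) := by
    calc _ ≤ ∑ x ∈ Finset.Ico (N - b₀ + 1 - σ) (N - G), (1 : ℝ) :=
          Finset.sum_le_sum fun x _ => hle1 x
      _ = ((N - G - (N - b₀ + 1 - σ) : ℕ) : ℝ) := by simp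
      _ ≤ _ := by
        have : N - G - (N - b₀ + 1 - σ) ≤ 2 * b₀ := by omega
        exact_mod_cast this
  linarith

end sliding

end Vale.Agent.Lib.P110
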