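import Vale.Agent.Lib.P110.Gap4

namespace Vale.Agent.Lib.P110

open Polynomial Finset

/-- One step: the weighted residual at order `n`. -/
lemma residual_sum_le {a : ℕ → ℤ} {N : ℕ} {w : ℕ → ℝ} {Lip : ℝ} (ha : IsLittlewood a N)
    (hLip : ∀ k k' : ℕ, |w k - w k'| ≤ Lip * |(k : ℝ) - k'| / N) (hLip0 : 0 ≤ Lip)
    {Q : ℂ[X]} {n n₁ T : ℕ} {q₁ β δ' : ℝ} (hN : 0 < N) (hd : Q.natDegree = n) (hn : n ≤ n₁)
    (hT : N + n < T)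
    (hβ : ∀ θ : ℝ, ‖Q.eval (cpt θ)‖ ≤ β)
    (hu : ∀ u ∈ range T, ‖Q.eval (cpt (gridPt T u))‖ ^ 2 * ‖Ypoly (winSeq w a) N (gridPt T u)‖ ^ 2 ≤
      q₁ * ‖Ypoly (winSeq w a) N (gridPt T u)‖ ^ 2 + δ') :
    ∑ l ∈ Finset.Ico n₁ N, w l ^ 2 * ‖conv Q n (fun k => (a k : ℂ)) l‖ ^ 2 ≤
      2 * (q₁ * ∑ k ∈ range N, w k ^ 2 + δ') + 2 * ((n + 1) * (β * (Lip * n))) ^ 2 := by
  have hNR : (1 : ℝ) ≤ N := by exact_mod_cast hN
  have henergy := energy_bound hd (winSeq w a) hN hT hu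
  rw [sum_winSeq_sq ha] at henergy
  have hco := coeff_le_of_sup hβ
  have hβ0 : 0 ≤ β := le_trans (norm_nonneg _) (hβ 0)
  have hpt : ∀ l ∈ Finset.Ico n₁ N, w l ^ 2 * ‖conv Q n (fun k => (a k : ℂ)) l‖ ^ 2 ≤
      2 * ‖conv Q n (fun k => (winSeq w a k : ℂ)) l‖ ^ 2 +
        2 * ((n + 1) * (β * (Lip * n / N))) ^ 2 := by
    intro l hl
    have hl' := Finset.mem_Ico.mp hl
    exact weighted_residual_le ha hLip hLip0 hco (by omega) hl'.2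
  have hsum := Finset.sum_le_sum hpt
  rw [Finset.sum_add_distrib, ← Finset.mul_sum] at hsum
  simp only [sum_const, Nat.card_Ico, nsmul_eq_mul] at hsum
  have h1 : ∑ l ∈ Finset.Ico n₁ N, ‖conv Q n (fun k => (winSeq w a k : ℂ)) l‖ ^ 2 ≤
      ∑ l ∈ Finset.Ico n N, ‖conv Q n (fun k => (winSeq w a k : ℂ)) l‖ ^ 2 := by
    refine Finset.sum_le_sum_of_subset_of_nonneg ?_ (fun _ _ _ => by positivity)
    intro l hl
    have hl' := Finset.mem_Ico.mp hl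
    rw [Finset.mem_Ico]
    omega
  have h2 : ((N - n₁ : ℕ) : ℝ) * (2 * ((n + 1) * (β * (Lip * n / N))) ^ 2) ≤
      2 * ((n + 1) * (β * (Lip * n))) ^ 2 := by
    have h3 : ((N - n₁ : ℕ) : ℝ) ≤ N := by exact_mod_cast Nat.sub_le N n₁
    have h4 : ((n : ℝ) + 1) * (β * (Lip * n / N)) = ((n + 1) * (β * (Lip * n))) / N := by ring
    rw [h4, div_pow]
    set X := (((n : ℝ) + 1) * (β * (Lip * n))) ^ 2 with hX
    have hX0 : 0 ≤ X := by positivity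
    have h5 : 0 ≤ 2 * (X / (N : ℝ) ^ 2) := by positivity
    calc ((N - n₁ : ℕ) : ℝ) * (2 * (X / (N : ℝ) ^ 2)) ≤ N * (2 * (X / (N : ℝ) ^ 2)) := by gcongr
      _ = 2 * X / N := by field_simp
      _ ≤ 2 * X := by
        apply div_le_self (by positivity) hNR
  linarith

open Classical in
/-- The weighted mass of the bad positions. -/
lemma bad_mass_le {a : ℕ → ℤ} {N : ℕ} {w : ℕ → ℝ} {F : ℕ → ℂ[X]} {n₀ n₁ : ℕ} :
    ∑ l ∈ Finset.Ico n₁ N, w l ^ 2 * (if isBad F a n₀ n₁ l then 1 else 0) ≤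
      ∑ n ∈ Finset.Ico n₀ (n₁ + 1), ∑ l ∈ Finset.Ico n₁ N, w l ^ 2 * ‖perr F a n l‖ ^ 2 := by
  rw [Finset.sum_comm]
  refine Finset.sum_le_sum fun l _ => ?_
  rw [← Finset.mul_sum]
  apply mul_le_mul_of_nonneg_left _ (by positivity)
  split_ifs with hb
  · obtain ⟨n, h1, h2, h3⟩ := hb
    have hmem : n ∈ Finset.Ico n₀ (n₁ + 1) := by
      rw [Finset.mem_Ico]; omega
    have h4 : ‖perr F a n l‖ ^ 2 ≤ ∑ n ∈ Finset.Ico n₀ (n₁ + 1), ‖perr F a n l‖ ^ 2 :=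
      Finset.single_le_sum (f := fun n => ‖perr F a n l‖ ^ 2) (fun _ _ => by positivity) hmem
    have h5 : (1 : ℝ) ≤ ‖perr F a n l‖ ^ 2 := by nlinarith
    linarith
  · exact Finset.sum_nonneg fun _ _ => by positivity

/-- The main inequality of the gap argument, for one polynomial. -/
lemma gap_ineq {a : ℕ → ℤ} {w : ℕ → ℝ} {Lip : ℝ} {N n₀ b₀ G σ n₁ n₂ : ℕ} {q B C δ θs ℓ : ℝ}
    {F : ℕ → ℂ[X]}
    (hb₀ : b₀ = 2 ^ (n₀ + 1)) (hG : G = b₀.factorial) (hσ : σ = G + b₀) (hn₁ : n₁ = G + 2 * b₀)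
    (hq0 : 0 < q) (hB : 1 ≤ B)
    (hFm : ∀ n, (F n).Monic) (hFd : ∀ n, (F n).natDegree = n)
    (hFsmall : ∀ (n : ℕ) (θ : ℝ), Real.cos (θ - θs) ≤ Real.cos (ℓ / 2) →
      ‖(F n).eval (cpt θ)‖ ≤ 2 * q ^ n)
    (hFbig : ∀ (n : ℕ) (θ : ℝ), ‖(F n).eval (cpt θ)‖ ≤ B ^ n)
    (hNlarge : n₁ + b₀ + 1 + n₂ * G + G + 1 ≤ N) (hn₂pos : 0 < n₂) (hδ0 : 0 < δ)
    (ha : IsLittlewood a N) (hw : ∀ k, |w k| ≤ 1)
    (hLip : ∀ k k' : ℕ, |w k - w k'| ≤ Lip * |(k : ℝ) - k'| / N) (hLip0 : 0 ≤ Lip)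
    (hC4 : 4 * (C * N) / n₂ ≤ (∑ k ∈ range N, w k ^ 2) / 2)
    (hsup : ∀ θ : ℝ, ‖Ypoly (winSeq w a) N θ‖ ^ 2 ≤ C * N)
    (hgap : ∀ θ : ℝ, Real.cos (ℓ / 2) < Real.cos (θ - θs) → ‖Ypoly (winSeq w a) N θ‖ ^ 2 ≤ δ * N) :
    (1 / (8 * (n₂ : ℝ) ^ 2)) * ((∑ k ∈ range N, w k ^ 2) / 2) ≤
      32 * ((∑ k ∈ range N, w k ^ 2) * ∑ n ∈ Finset.Ico n₀ (n₁ + 1), (q ^ 2) ^ n) +
      8 * (δ * N * ∑ n ∈ Finset.Ico n₀ (n₁ + 1), B ^ (2 * n)) +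
      (8 * ∑ n ∈ Finset.Ico n₀ (n₁ + 1), (((n : ℝ) + 1) * (B ^ n * (Lip * n))) ^ 2 +
        6 * (b₀ : ℝ) + 8 * (Lip * ((σ : ℝ) + b₀)) + (Lip + 1) * G) := by
  classical
  have hb₀pos : 0 < b₀ := by rw [hb₀]; positivity
  have hGpos : 0 < G := by rw [hG]; exact Nat.factorial_pos _
  have hNpos : 0 < N := by omega
  have hNR : (0 : ℝ) < N := by exact_mod_cast hNpos
  have hlow := defect_lower (winSeq w a) N (2 * N) G n₂ (D := C * N) hGpos hn₂pos (by omega)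
    (by omega) (fun u _ => hsup _)
  rw [sum_winSeq_sq ha] at hlow
  have hlow2 : (1 / (8 * (n₂ : ℝ) ^ 2)) * ((∑ k ∈ range N, w k ^ 2) / 2) ≤
      ∑ k ∈ range N, w k ^ 2 - ∑ k ∈ range (N - G), winSeq w a k * winSeq w a (k + G) := by
    refine le_trans ?_ hlow
    apply mul_le_mul_of_nonneg_left _ (by positivity)
    linarith
  have hup := defect_upper (N := N) ha hw hLip hLip0 (G := G) (by omega)
  rw [sum_winSeq_sq ha] at hup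
  have hdis := dis_full_le (N := N) (a := a) hw (b₀ := b₀) (σ := σ) (n₁ := n₁) (G := G) hb₀pos
    (by omega) hσ (by omega)
  have hslide := sliding (N := N) (a := a) hw hLip hLip0 (b₀ := b₀) (σ := σ) (n₁ := n₁) (G := G)
    (bad := isBad F a n₀ n₁) hb₀pos (by omega) (by omega)
    (by
      intro z hz hzN hne
      by_contra hc
      apply hne
      exact agree_of_few_bad (fun n => ⟨hFm n, hFd n⟩) ha hb₀ hG hσ hn₁ hz hzN (lt_of_not_ge hc))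
  have hbad := bad_mass_le (a := a) (N := N) (w := w) (F := F) (n₀ := n₀) (n₁ := n₁)
  have horder : ∀ n ∈ Finset.Ico n₀ (n₁ + 1), ∑ l ∈ Finset.Ico n₁ N, w l ^ 2 * ‖perr F a n l‖ ^ 2 ≤
      8 * (∑ k ∈ range N, w k ^ 2) * (q ^ 2) ^ n + 2 * δ * N * B ^ (2 * n) +
        2 * (((n : ℝ) + 1) * (B ^ n * (Lip * n))) ^ 2 := by
    intro n hn
    have hn' := Finset.mem_Ico.mp hn
    have h1 := residual_sum_le (a := a) (N := N) (w := w) (Lip := Lip) (Q := F n) (n := n)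
      (n₁ := n₁) (T := 2 * N) (q₁ := 4 * (q ^ 2) ^ n) (β := B ^ n) (δ' := B ^ (2 * n) * (δ * N))
      ha hLip hLip0 hNpos (hFd n) (by omega) (by omega) (hFbig n)
      (by
        intro u _
        set Y := ‖Ypoly (winSeq w a) N (gridPt (2 * N) u)‖ with hYdef
        have hY0 : 0 ≤ Y := norm_nonneg _
        by_cases hθ : Real.cos (gridPt (2 * N) u - θs) ≤ Real.cos (ℓ / 2)
        · have h2 := hFsmall n (gridPt (2 * N) u) hθ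
          have h3 : ‖(F n).eval (cpt (gridPt (2 * N) u))‖ ^ 2 ≤ 4 * (q ^ 2) ^ n := by
            calc _ ≤ (2 * q ^ n) ^ 2 := pow_le_pow_left₀ (norm_nonneg _) h2 2
              _ = _ := by rw [mul_pow, ← pow_mul, ← pow_mul, mul_comm n 2]; norm_num
          have h4 : 0 ≤ B ^ (2 * n) * (δ * N) := by positivity
          have h5 : ‖(F n).eval (cpt (gridPt (2 * N) u))‖ ^ 2 * Y ^ 2 ≤ 4 * (q ^ 2) ^ n * Y ^ 2 := by
            gcongr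
          linarith
        · have h2 := hgap (gridPt (2 * N) u) (not_le.mp hθ)
          have h3 : ‖(F n).eval (cpt (gridPt (2 * N) u))‖ ^ 2 ≤ B ^ (2 * n) := by
            calc _ ≤ (B ^ n) ^ 2 := pow_le_pow_left₀ (norm_nonneg _) (hFbig n _) 2
              _ = _ := by rw [← pow_mul, mul_comm]
          have h4 : 0 ≤ 4 * (q ^ 2) ^ n * Y ^ 2 := by positivity
          have h5 : ‖(F n).eval (cpt (gridPt (2 * N) u))‖ ^ 2 * Y ^ 2 ≤ B ^ (2 * n) * (δ * N) := by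
            gcongr
          linarith)
    have h2 : ∑ l ∈ Finset.Ico n₁ N, w l ^ 2 * ‖perr F a n l‖ ^ 2 =
        ∑ l ∈ Finset.Ico n₁ N, w l ^ 2 * ‖conv (F n) n (fun k => (a k : ℂ)) l‖ ^ 2 := rfl
    rw [h2]
    refine le_trans h1 (le_of_eq ?_)
    ring
  have hsumorder := Finset.sum_le_sum horder
  rw [Finset.sum_add_distrib, Finset.sum_add_distrib, ← Finset.mul_sum, ← Finset.mul_sum,
    ← Finset.mul_sum] at hsumorder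
  have hνle := le_trans hbad hsumorder
  refine le_trans hlow2 ?_
  linarith

theorem gap_core (C ℓ Mlow : ℝ) (hℓ : 0 < ℓ) (hℓ2 : ℓ < 2 * Real.pi) (hM : 0 < Mlow) :
    ∃ δ : ℝ, 0 < δ ∧ ∀ Lip : ℝ, 0 ≤ Lip → ∃ N₀ : ℕ, ∀ N : ℕ, N₀ ≤ N →
      ∀ (a : ℕ → ℤ) (w : ℕ → ℝ) (θs : ℝ), IsLittlewood a N → (∀ k, |w k| ≤ 1) →
      (∀ k k' : ℕ, |w k - w k'| ≤ Lip * |(k : ℝ) - k'| / N) →
      Mlow * N ≤ ∑ k ∈ range N, w k ^ 2 →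
      (∀ θ : ℝ, ‖Ypoly (winSeq w a) N θ‖ ^ 2 ≤ C * N) →
      (∀ θ : ℝ, Real.cos (ℓ / 2) < Real.cos (θ - θs) → ‖Ypoly (winSeq w a) N θ‖ ^ 2 ≤ δ * N) →
      False := by
  obtain ⟨q, B, hq0, hq1, hB, hfam⟩ := exists_monic_family ℓ hℓ hℓ2
  obtain ⟨n₂, hn₂pos, hn₂R⟩ : ∃ n₂ : ℕ, 0 < n₂ ∧ 8 * C / Mlow ≤ n₂ := by
    refine ⟨⌈8 * C / Mlow⌉₊ + 1, by omega, ?_⟩
    have h1 := Nat.le_ceil (8 * C / Mlow)
    push_cast
    linarith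
  have hn₂R0 : (0 : ℝ) < n₂ := by exact_mod_cast hn₂pos
  obtain ⟨κ, hκ⟩ : ∃ κ : ℝ, κ = 1 / (8 * (n₂ : ℝ) ^ 2) := ⟨_, rfl⟩
  have hκ0 : 0 < κ := by rw [hκ]; positivity
  have hq2 : q ^ 2 < 1 := by nlinarith
  have hq20 : 0 ≤ q ^ 2 := by positivity
  have h1q : 0 < 1 - q ^ 2 := by linarith
  have htend := tendsto_pow_atTop_nhds_zero_of_lt_one hq20 hq2
  obtain ⟨n₀, hn₀⟩ := (htend.eventually
    (gt_mem_nhds (by positivity : 0 < κ * (1 - q ^ 2) / 256))).exists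
  obtain ⟨b₀, hb₀⟩ : ∃ b₀ : ℕ, b₀ = 2 ^ (n₀ + 1) := ⟨_, rfl⟩
  have hn₀b₀ : n₀ < b₀ := by
    have : n₀ + 1 < 2 ^ (n₀ + 1) := Nat.lt_two_pow_self
    rw [hb₀]
    omega
  obtain ⟨G, hG⟩ : ∃ G : ℕ, G = b₀.factorial := ⟨_, rfl⟩
  obtain ⟨σ, hσ⟩ : ∃ σ : ℕ, σ = G + b₀ := ⟨_, rfl⟩
  obtain ⟨n₁, hn₁⟩ : ∃ n₁ : ℕ, n₁ = G + 2 * b₀ := ⟨_, rfl⟩
  have hn₀n₁ : n₀ ≤ n₁ := by omega
  obtain ⟨X₁, hX₁⟩ : ∃ X₁ : ℝ, X₁ = ∑ n ∈ Finset.Ico n₀ (n₁ + 1), B ^ (2 * n) := ⟨_, rfl⟩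
  have hX₁pos : 0 < X₁ := by
    rw [hX₁]
    apply Finset.sum_pos
    · intro n _
      positivity
    · exact ⟨n₀, Finset.mem_Ico.mpr ⟨le_rfl, by omega⟩⟩
  obtain ⟨δ, hδ⟩ : ∃ δ : ℝ, δ = κ * Mlow / (64 * X₁) := ⟨_, rfl⟩
  have hδ0 : 0 < δ := by rw [hδ]; positivity
  refine ⟨δ, hδ0, ?_⟩
  intro Lip hLip0
  obtain ⟨R₀, hR₀⟩ : ∃ R₀ : ℝ, R₀ = 8 * ∑ n ∈ Finset.Ico n₀ (n₁ + 1),
      (((n : ℝ) + 1) * (B ^ n * (Lip * n))) ^ 2 + 6 * (b₀ : ℝ) + 8 * (Lip * ((σ : ℝ) + b₀)) +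
      (Lip + 1) * G := ⟨_, rfl⟩
  refine ⟨n₁ + b₀ + 1 + n₂ * G + G + ⌈16 * R₀ / (κ * Mlow)⌉₊ + 1, ?_⟩
  intro N hN a w θs ha hw hLip hmass hsup hgap
  have hNpos : 0 < N := by omega
  have hNR : (0 : ℝ) < N := by exact_mod_cast hNpos
  obtain ⟨M, hMdef⟩ : ∃ M : ℝ, M = ∑ k ∈ range N, w k ^ 2 := ⟨_, rfl⟩
  rw [← hMdef] at hmass
  have hMpos : 0 < M := lt_of_lt_of_le (by positivity) hmass
  choose F hFm hFd hFsmall hFbig using hfam θs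
  have hC4 : 4 * (C * N) / n₂ ≤ M / 2 := by
    rw [div_le_iff₀ hn₂R0]
    have h1 : 8 * C ≤ n₂ * Mlow := by
      rw [div_le_iff₀ hM] at hn₂R
      linarith
    have h2 : Mlow * N * n₂ ≤ M * n₂ := by gcongr
    nlinarith
  have hmain := gap_ineq (q := q) (B := B) (F := F) (θs := θs) (ℓ := ℓ) (C := C) (δ := δ)
    (n₂ := n₂) (Lip := Lip) hb₀ hG hσ hn₁ hq0 hB hFm hFd hFsmall hFbig (by omega) hn₂pos hδ0
    ha hw hLip hLip0 (by rw [← hMdef]; exact hC4) hsup hgap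
  rw [← hMdef, ← hX₁, ← hR₀, ← hκ] at hmain
  have hgeo : ∑ n ∈ Finset.Ico n₀ (n₁ + 1), (q ^ 2) ^ n ≤ (q ^ 2) ^ n₀ / (1 - q ^ 2) :=
    geom_sum_Ico_le_of_lt_one hq20 hq2
  have hgeo2 : (q ^ 2) ^ n₀ / (1 - q ^ 2) ≤ κ / 256 := by
    rw [div_le_iff₀ h1q]
    have : κ / 256 * (1 - q ^ 2) = κ * (1 - q ^ 2) / 256 := by ring
    rw [this]
    exact hn₀.le
  have hNbig : 16 * R₀ / (κ * Mlow) ≤ N := by
    have h1 := Nat.le_ceil (16 * R₀ / (κ * Mlow))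
    have h2 : ((⌈16 * R₀ / (κ * Mlow)⌉₊ : ℕ) : ℝ) ≤ N := by
      exact_mod_cast (by omega : ⌈16 * R₀ / (κ * Mlow)⌉₊ ≤ N)
    linarith
  have hR₀N : R₀ ≤ κ * M / 16 := by
    have h1 : 16 * R₀ ≤ N * (κ * Mlow) := by
      rwa [div_le_iff₀ (by positivity)] at hNbig
    have h2 : κ * (Mlow * N) ≤ κ * M := by gcongr
    have h3 : N * (κ * Mlow) = κ * (Mlow * N) := by ring
    rw [h3] at h1
    linarith
  have hδX : 8 * (δ * N * X₁) ≤ κ * M / 8 := by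
    have h1 : δ * X₁ = κ * Mlow / 64 := by
      rw [hδ]
      field_simp
    have h2 : κ * (Mlow * N) ≤ κ * M := by gcongr
    have h3 : 8 * (δ * N * X₁) = 8 * (δ * X₁) * N := by ring
    rw [h3, h1]
    have h4 : 8 * (κ * Mlow / 64) * N = κ * (Mlow * N) / 8 := by ring
    rw [h4]
    linarith
  have hgeo3 : 32 * (M * ∑ n ∈ Finset.Ico n₀ (n₁ + 1), (q ^ 2) ^ n) ≤ κ * M / 8 := by
    have h1 : ∑ n ∈ Finset.Ico n₀ (n₁ + 1), (q ^ 2) ^ n ≤ κ / 256 := le_trans hgeo hgeo2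
    have h2 : M * ∑ n ∈ Finset.Ico n₀ (n₁ + 1), (q ^ 2) ^ n ≤ M * (κ / 256) := by gcongr
    have h3 : M * (κ / 256) = κ * M / 256 := by ring
    rw [h3] at h2
    linarith
  have hκM : 0 < κ * M := by positivity
  have h9 : κ * (M / 2) = κ * M / 2 := by ring
  rw [h9] at hmain
  linarith

end Vale.Agent.Lib.P110
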