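import Vale.Agent.Lib.P110.Rig3

namespace Vale.Agent.Lib.P110

open Complex Finset

/-- grid points `2 π u / T`. -/
noncomputable def gridPt (T u : ℕ) : ℝ := 2 * Real.pi * u / T

/-- general real trigonometric polynomial -/
noncomputable def Ypoly (y : ℕ → ℝ) (N : ℕ) (θ : ℝ) : ℂ :=
  ∑ k ∈ range N, (y k : ℂ) * cexp (I * (k : ℂ) * (θ : ℂ))

lemma polyAt_eq_Ypoly (a : ℕ → ℤ) (N : ℕ) (θ : ℝ) :
    polyAt a N θ = Ypoly (fun k => (a k : ℝ)) N θ := by
  unfold polyAt Ypoly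
  refine Finset.sum_congr rfl fun k _ => ?_
  push_cast
  rfl

lemma cexp_grid (T u : ℕ) (hT : 0 < T) (h : ℤ) :
    cexp (I * (h : ℂ) * ((gridPt T u : ℝ) : ℂ)) =
      (cexp (2 * (Real.pi : ℂ) * I * ((h : ℂ) / (T : ℂ)))) ^ u := by
  rw [← Complex.exp_nat_mul]
  congr 1
  unfold gridPt
  have hTc : (T : ℂ) ≠ 0 := by exact_mod_cast hT.ne'
  push_cast
  field_simp

lemma grid_sum_zero (T : ℕ) (hT : 0 < T) (h : ℤ) (hh : ¬ (T : ℤ) ∣ h) :
    ∑ u ∈ range T, cexp (I * (h : ℂ) * ((gridPt T u : ℝ) : ℂ)) = 0 := by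
  have hTc : (T : ℂ) ≠ 0 := by exact_mod_cast hT.ne'
  simp_rw [cexp_grid T _ hT h]
  set ζ : ℂ := cexp (2 * (Real.pi : ℂ) * I * ((h : ℂ) / (T : ℂ))) with hζ
  have h1 : ζ ^ T = 1 := by
    rw [hζ, ← Complex.exp_nat_mul]
    have : (T : ℂ) * (2 * (Real.pi : ℂ) * I * ((h : ℂ) / (T : ℂ))) = (h : ℂ) * (2 * (Real.pi : ℂ) * I) := by
      field_simp
    rw [this]
    exact Complex.exp_int_mul_two_pi_mul_I h
  have h2 : ζ ≠ 1 := by
    intro hz
    rw [hζ, Complex.exp_eq_one_iff] at hz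
    obtain ⟨n, hn⟩ := hz
    have h3 : (2 * (Real.pi : ℂ) * I) ≠ 0 := Complex.two_pi_I_ne_zero
    have h4 : (h : ℂ) / (T : ℂ) = (n : ℂ) := by
      have : (2 * (Real.pi : ℂ) * I) * ((h : ℂ) / (T : ℂ)) = (2 * (Real.pi : ℂ) * I) * (n : ℂ) := by
        rw [hn]; ring
      exact mul_left_cancel₀ h3 this
    have h5 : (h : ℂ) = (n : ℂ) * (T : ℂ) := by
      rw [div_eq_iff hTc] at h4
      exact h4
    have h6 : h = n * (T : ℤ) := by exact_mod_cast h5
    exact hh ⟨n, by rw [h6]; ring⟩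
  have h3 := mul_neg_geom_sum ζ T
  have h4 : (1 - ζ) * ∑ i ∈ range T, ζ ^ i = 0 := by
    rw [h3, h1]; ring
  rcases mul_eq_zero.mp h4 with h5 | h5
  · exact absurd (sub_eq_zero.mp h5).symm h2
  · exact h5

lemma grid_sum_self (T : ℕ) (u : ℕ) : cexp (I * ((0 : ℤ) : ℂ) * ((gridPt T u : ℝ) : ℂ)) = 1 := by
  simp

lemma normSq_Ypoly (y : ℕ → ℝ) (N : ℕ) (θ : ℝ) :
    ((‖Ypoly y N θ‖ ^ 2 : ℝ) : ℂ) = ∑ k ∈ range N, ∑ l ∈ range N,
      ((y k * y l : ℝ) : ℂ) * cexp (I * (((k : ℤ) - (l : ℤ) : ℤ) : ℂ) * (θ : ℂ)) := by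
  have h1 : ((‖Ypoly y N θ‖ ^ 2 : ℝ) : ℂ) = Ypoly y N θ * (starRingEnd ℂ) (Ypoly y N θ) := by
    rw [Complex.mul_conj, Complex.normSq_eq_norm_sq]
  rw [h1]
  unfold Ypoly
  rw [map_sum, Finset.sum_mul_sum]
  refine Finset.sum_congr rfl fun k _ => Finset.sum_congr rfl fun l _ => ?_
  rw [map_mul, Complex.conj_ofReal, ← Complex.exp_conj]
  have h2 : (starRingEnd ℂ) (I * (l : ℂ) * (θ : ℂ)) = -(I * (l : ℂ) * (θ : ℂ)) := by
    simp [Complex.conj_ofReal]
  rw [h2]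
  have h3 : I * (((k : ℤ) - (l : ℤ) : ℤ) : ℂ) * (θ : ℂ) =
      I * (k : ℂ) * (θ : ℂ) + -(I * (l : ℂ) * (θ : ℂ)) := by
    push_cast
    ring
  rw [h3, Complex.exp_add]
  push_cast
  ring

/-- the grid correlation identity -/
theorem grid_corr (y : ℕ → ℝ) (N T g : ℕ) (hT : N + g < T) :
    ∑ u ∈ range T, ‖Ypoly y N (gridPt T u)‖ ^ 2 * Real.cos ((g : ℝ) * gridPt T u) =
      (T : ℝ) * ∑ k ∈ range (N - g), y k * y (k + g) := by
  have hT0 : 0 < T := by omega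
  have key : ∑ u ∈ range T, (((‖Ypoly y N (gridPt T u)‖ ^ 2 : ℝ) : ℂ) *
      cexp (I * ((g : ℤ) : ℂ) * ((gridPt T u : ℝ) : ℂ))) =
      ((((T : ℝ) * ∑ k ∈ range (N - g), y k * y (k + g) : ℝ)) : ℂ) := by
    simp_rw [normSq_Ypoly, Finset.sum_mul]
    rw [Finset.sum_comm]
    have h1 : ∀ k ∈ range N, ∑ u ∈ range T, ∑ l ∈ range N,
        ((y k * y l : ℝ) : ℂ) * cexp (I * (((k : ℤ) - (l : ℤ) : ℤ) : ℂ) * ((gridPt T u : ℝ) : ℂ)) *
          cexp (I * ((g : ℤ) : ℂ) * ((gridPt T u : ℝ) : ℂ)) =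
        if k + g < N then ((T : ℂ) * ((y k * y (k + g) : ℝ) : ℂ)) else 0 := by
      intro k hk
      rw [Finset.sum_comm]
      have h2 : ∀ l ∈ range N, ∑ u ∈ range T,
          ((y k * y l : ℝ) : ℂ) * cexp (I * (((k : ℤ) - (l : ℤ) : ℤ) : ℂ) * ((gridPt T u : ℝ) : ℂ)) *
            cexp (I * ((g : ℤ) : ℂ) * ((gridPt T u : ℝ) : ℂ)) =
          if l = k + g then ((T : ℂ) * ((y k * y l : ℝ) : ℂ)) else 0 := by
        intro l hl
        have h3 : ∀ u ∈ range T,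
            ((y k * y l : ℝ) : ℂ) * cexp (I * (((k : ℤ) - (l : ℤ) : ℤ) : ℂ) * ((gridPt T u : ℝ) : ℂ)) *
              cexp (I * ((g : ℤ) : ℂ) * ((gridPt T u : ℝ) : ℂ)) =
            ((y k * y l : ℝ) : ℂ) *
              cexp (I * (((k : ℤ) - (l : ℤ) + (g : ℤ) : ℤ) : ℂ) * ((gridPt T u : ℝ) : ℂ)) := by
          intro u _
          rw [mul_assoc, ← Complex.exp_add]
          congr 2
          push_cast
          ring
        rw [Finset.sum_congr rfl h3, ← Finset.mul_sum]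
        split_ifs with hl2
        · subst hl2
          have h4 : ((k : ℤ) - ((k + g : ℕ) : ℤ) + (g : ℤ) : ℤ) = 0 := by
            push_cast; ring
          rw [h4]
          simp only [Int.cast_zero, mul_zero, zero_mul, Complex.exp_zero]
          simp only [sum_const, card_range, nsmul_eq_mul, mul_one]
          ring
        · have hk' : k < N := Finset.mem_range.mp hk
          have hl' : l < N := Finset.mem_range.mp hl
          have h5 : ¬ (T : ℤ) ∣ ((k : ℤ) - (l : ℤ) + (g : ℤ)) := by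
            intro hd
            have h6 : ((k : ℤ) - (l : ℤ) + (g : ℤ)) ≠ 0 := by
              intro h0
              apply hl2
              omega
            have h8 : |((k : ℤ) - (l : ℤ) + (g : ℤ))| < (T : ℤ) := by
              rw [abs_lt]
              constructor <;> omega
            exact h6 (Int.eq_zero_of_abs_lt_dvd hd h8)
          rw [grid_sum_zero T hT0 _ h5, mul_zero]
      rw [Finset.sum_congr rfl h2, Finset.sum_ite_eq' (range N) (k + g)]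
      simp only [Finset.mem_range]
    rw [Finset.sum_congr rfl h1]
    push_cast
    rw [Finset.mul_sum]
    rw [← Finset.sum_filter]
    have h6 : (range N).filter (fun k => k + g < N) = range (N - g) := by
      ext k
      simp only [Finset.mem_filter, Finset.mem_range]
      omega
    rw [h6]
  have h2 := congrArg Complex.re key
  rw [Complex.re_sum] at h2
  rw [Complex.ofReal_re] at h2
  rw [← h2]
  refine Finset.sum_congr rfl fun u _ => ?_
  rw [Complex.re_ofReal_mul]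
  congr 1
  have h3 : I * ((g : ℤ) : ℂ) * ((gridPt T u : ℝ) : ℂ) = (((g : ℝ) * gridPt T u : ℝ) : ℂ) * I := by
    push_cast
    ring
  rw [h3, Complex.exp_ofReal_mul_I_re]

/-- Parseval on the grid. -/
theorem grid_parseval (y : ℕ → ℝ) (N T : ℕ) (hT : N < T) :
    ∑ u ∈ range T, ‖Ypoly y N (gridPt T u)‖ ^ 2 = (T : ℝ) * ∑ k ∈ range N, y k ^ 2 := by
  have h := grid_corr y N T 0 (by omega)
  simp only [Nat.cast_zero, zero_mul, Real.cos_zero, mul_one, Nat.sub_zero, add_zero] at h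
  rw [h]
  congr 1
  refine Finset.sum_congr rfl fun k _ => ?_
  ring

end Vale.Agent.Lib.P110
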