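import Vale.Agent.Lib.P110.Grid

namespace Vale.Agent.Lib.P110

open Polynomial

/-- the point `e^{iθ}` of the unit circle -/
noncomputable def cpt (θ : ℝ) : ℂ := Complex.exp (Complex.I * (θ : ℂ))

lemma norm_cpt (θ : ℝ) : ‖cpt θ‖ = 1 := by
  unfold cpt
  rw [mul_comm, Complex.norm_exp_ofReal_mul_I]

lemma cpt_ne_zero (θ : ℝ) : cpt θ ≠ 0 := Complex.exp_ne_zero _

lemma cpt_add (θ θ' : ℝ) : cpt (θ + θ') = cpt θ * cpt θ' := by
  unfold cpt
  rw [← Complex.exp_add]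
  congr 1
  push_cast
  ring

lemma cpt_sq_add_one (θ : ℝ) :
    cpt θ ^ 2 + 1 = cpt θ * ((2 * Real.cos θ : ℝ) : ℂ) := by
  have h1 : ((2 * Real.cos θ : ℝ) : ℂ) = Complex.exp (Complex.I * (θ : ℂ)) +
      Complex.exp (-(Complex.I * (θ : ℂ))) := by
    push_cast
    rw [Complex.cos]
    have h2 : (θ : ℂ) * Complex.I = Complex.I * (θ : ℂ) := by ring
    have h3 : -(θ : ℂ) * Complex.I = -(Complex.I * (θ : ℂ)) := by ring
    rw [h2, h3]
    ring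
  rw [h1]
  unfold cpt
  have h2 : Complex.exp (Complex.I * (θ : ℂ)) * Complex.exp (-(Complex.I * (θ : ℂ))) = 1 := by
    rw [← Complex.exp_add, add_neg_cancel, Complex.exp_zero]
  rw [mul_add, h2]
  ring

/-- the numbers `u₀ ^ (2 ^ k)`. -/
noncomputable def chebU (u₀ : ℝ) (k : ℕ) : ℝ := u₀ ^ (2 ^ k)

lemma chebU_succ (u₀ : ℝ) (k : ℕ) : chebU u₀ (k + 1) = chebU u₀ k ^ 2 := by
  unfold chebU
  rw [← pow_mul, pow_succ]

/-- Iterated Chebyshev-type trigonometric polynomials. -/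
noncomputable def chebT (xc u₀ : ℝ) : ℕ → ℝ → ℝ
  | 0, θ => 2 * Real.cos θ - xc
  | k + 1, θ => (chebT xc u₀ k θ) ^ 2 - 2 * (chebU u₀ k) ^ 2

/-- Their monic polynomial incarnation. -/
noncomputable def chebP (xc u₀ : ℝ) : ℕ → ℂ[X]
  | 0 => X ^ 2 - C (xc : ℂ) * X + 1
  | k + 1 => (chebP xc u₀ k) ^ 2 - C ((2 * (chebU u₀ k) ^ 2 : ℝ) : ℂ) * X ^ (2 ^ (k + 1))

lemma chebP_monic (xc u₀ : ℝ) (k : ℕ) :
    (chebP xc u₀ k).Monic ∧ (chebP xc u₀ k).natDegree = 2 ^ (k + 1) := by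
  induction k with
  | zero =>
    have hd : (X ^ 2 - C (xc : ℂ) * X + 1 : ℂ[X]) = X ^ 2 + (-(C (xc : ℂ) * X) + 1) := by ring
    have hlt : (-(C (xc : ℂ) * X) + 1 : ℂ[X]).degree < 2 := by
      have h1 : (-(C (xc : ℂ) * X) + 1 : ℂ[X]).degree ≤ 1 := by
        refine le_trans (degree_add_le _ _) (max_le ?_ ?_)
        · rw [degree_neg]
          exact degree_C_mul_X_le _
        · rw [degree_one]
          norm_num
      exact lt_of_le_of_lt h1 (by norm_num)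
    have hm : (chebP xc u₀ 0).Monic := by
      show (X ^ 2 - C (xc : ℂ) * X + 1 : ℂ[X]).Monic
      rw [hd]
      exact monic_X_pow_add hlt
    refine ⟨hm, ?_⟩
    show (X ^ 2 - C (xc : ℂ) * X + 1 : ℂ[X]).natDegree = 2 ^ (0 + 1)
    rw [hd]
    rw [natDegree_add_eq_left_of_degree_lt]
    · simp
    · simpa using hlt
  | succ k ih =>
    obtain ⟨hm, hd⟩ := ih
    have hsq : ((chebP xc u₀ k) ^ 2).Monic := hm.pow 2
    have hsqd : ((chebP xc u₀ k) ^ 2).natDegree = 2 ^ (k + 2) := by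
      rw [hm.natDegree_pow, hd]
      ring
    have hr : (C ((2 * (chebU u₀ k) ^ 2 : ℝ) : ℂ) * X ^ (2 ^ (k + 1)) : ℂ[X]).degree ≤
        ((2 ^ (k + 1) : ℕ) : WithBot ℕ) := by
      exact degree_C_mul_X_pow_le _ _
    have hlt2 : (2 ^ (k + 1) : ℕ) < 2 ^ (k + 2) := by
      apply Nat.pow_lt_pow_right <;> omega
    have hlt : (C ((2 * (chebU u₀ k) ^ 2 : ℝ) : ℂ) * X ^ (2 ^ (k + 1)) : ℂ[X]).degree <
        ((chebP xc u₀ k) ^ 2).degree := by
      rw [degree_eq_natDegree hsq.ne_zero, hsqd]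
      refine lt_of_le_of_lt hr ?_
      exact_mod_cast hlt2
    constructor
    · exact hsq.sub_of_left hlt
    · show ((chebP xc u₀ k) ^ 2 - C ((2 * (chebU u₀ k) ^ 2 : ℝ) : ℂ) * X ^ (2 ^ (k + 1))).natDegree =
        2 ^ (k + 1 + 1)
      rw [natDegree_sub_eq_left_of_natDegree_lt]
      · exact hsqd
      · rw [hsqd]
        refine lt_of_le_of_lt (natDegree_C_mul_X_pow_le _ _) hlt2

lemma chebP_eval (xc u₀ : ℝ) (k : ℕ) (θ : ℝ) :
    (chebP xc u₀ k).eval (cpt θ) = cpt θ ^ (2 ^ k) * ((chebT xc u₀ k θ : ℝ) : ℂ) := by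
  induction k with
  | zero =>
    show (X ^ 2 - C (xc : ℂ) * X + 1 : ℂ[X]).eval (cpt θ) = _
    simp only [eval_add, eval_sub, eval_pow, eval_X, eval_mul, eval_C, eval_one, pow_one, pow_zero]
    have h := cpt_sq_add_one θ
    show _ = cpt θ * ((2 * Real.cos θ - xc : ℝ) : ℂ)
    push_cast at h ⊢
    linear_combination h
  | succ k ih =>
    show ((chebP xc u₀ k) ^ 2 - C ((2 * (chebU u₀ k) ^ 2 : ℝ) : ℂ) * X ^ (2 ^ (k + 1))).eval (cpt θ) =
      cpt θ ^ (2 ^ (k + 1)) * (((chebT xc u₀ k θ) ^ 2 - 2 * (chebU u₀ k) ^ 2 : ℝ) : ℂ)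
    simp only [eval_sub, eval_pow, eval_mul, eval_C, eval_X]
    rw [ih]
    have h1 : cpt θ ^ (2 ^ (k + 1)) = (cpt θ ^ (2 ^ k)) ^ 2 := by
      rw [← pow_mul, pow_succ]
    rw [h1]
    push_cast
    ring

lemma chebT_abs_le {xc u₀ θ : ℝ} (h : |2 * Real.cos θ - xc| ≤ 2 * u₀) (k : ℕ) :
    |chebT xc u₀ k θ| ≤ 2 * chebU u₀ k := by
  induction k with
  | zero =>
    show |2 * Real.cos θ - xc| ≤ 2 * u₀ ^ (2 ^ 0)
    simpa using h
  | succ k ih =>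
    show |(chebT xc u₀ k θ) ^ 2 - 2 * (chebU u₀ k) ^ 2| ≤ _
    rw [chebU_succ]
    have h1 : (chebT xc u₀ k θ) ^ 2 ≤ (2 * chebU u₀ k) ^ 2 := sq_le_sq' (by linarith [abs_le.mp ih])
      (abs_le.mp ih).2
    rw [abs_le]
    constructor <;> nlinarith [sq_nonneg (chebT xc u₀ k θ)]

lemma chebT_bounded (xc u₀ : ℝ) (k : ℕ) : ∃ B : ℝ, 1 ≤ B ∧ ∀ θ, |chebT xc u₀ k θ| ≤ B := by
  induction k with
  | zero =>
    refine ⟨2 + |xc| + 1, by linarith [abs_nonneg xc], fun θ => ?_⟩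
    show |2 * Real.cos θ - xc| ≤ _
    have h1 := abs_sub (2 * Real.cos θ) xc
    have h2 : |2 * Real.cos θ| ≤ 2 := by
      rw [abs_mul, abs_of_pos (by norm_num : (0 : ℝ) < 2)]
      have := Real.abs_cos_le_one θ
      linarith
    linarith
  | succ k ih =>
    obtain ⟨B, hB, h⟩ := ih
    refine ⟨B ^ 2 + 2 * (chebU u₀ k) ^ 2 + 1, by nlinarith [sq_nonneg (chebU u₀ k)], fun θ => ?_⟩
    show |(chebT xc u₀ k θ) ^ 2 - 2 * (chebU u₀ k) ^ 2| ≤ _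
    have h1 : (chebT xc u₀ k θ) ^ 2 ≤ B ^ 2 := sq_le_sq' (by linarith [abs_le.mp (h θ)])
      (abs_le.mp (h θ)).2
    have h2 := sq_nonneg (chebT xc u₀ k θ)
    have h3 := sq_nonneg (chebU u₀ k)
    rw [abs_le]
    constructor <;> nlinarith

/-- One monic polynomial which is small outside an arc around `1`. -/
lemma exists_monic_small (ℓ : ℝ) (hℓ : 0 < ℓ) (hℓ2 : ℓ < 2 * Real.pi) :
    ∃ (D : ℕ) (B : ℝ) (P : ℂ[X]), 0 < D ∧ 1 ≤ B ∧ P.Monic ∧ P.natDegree = D ∧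
      (∀ θ : ℝ, Real.cos θ ≤ Real.cos (ℓ / 2) → ‖P.eval (cpt θ)‖ ≤ 1 / 2) ∧
      ∀ θ : ℝ, ‖P.eval (cpt θ)‖ ≤ B := by
  set β := Real.cos (ℓ / 2) with hβ
  have hβ1 : β < 1 := by
    rw [hβ, ← Real.cos_zero]
    apply Real.cos_lt_cos_of_nonneg_of_le_pi (le_refl 0) (by linarith) (by linarith)
  have hβ2 : -1 ≤ β := Real.neg_one_le_cos _
  set u₀ : ℝ := (1 + β) / 2 with hu₀
  set xc : ℝ := β - 1 with hxc
  have hu0 : 0 ≤ u₀ := by rw [hu₀]; linarith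
  have hu1 : u₀ < 1 := by rw [hu₀]; linarith
  -- choose k
  have htend := tendsto_pow_atTop_nhds_zero_of_lt_one hu0 hu1
  have hev := (htend.eventually (gt_mem_nhds (by norm_num : (0 : ℝ) < 1 / 4))).exists
  obtain ⟨n, hn⟩ := hev
  have hk : chebU u₀ n ≤ 1 / 4 := by
    unfold chebU
    have h1 : n ≤ 2 ^ n := Nat.lt_two_pow_self.le
    have h2 : u₀ ^ (2 ^ n) ≤ u₀ ^ n := pow_le_pow_of_le_one hu0 hu1.le h1
    linarith
  obtain ⟨B, hB, hBb⟩ := chebT_bounded xc u₀ n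
  obtain ⟨hm, hd⟩ := chebP_monic xc u₀ n
  refine ⟨2 ^ (n + 1), B, chebP xc u₀ n, by positivity, hB, hm, hd, ?_, ?_⟩
  · intro θ hθ
    have h1 : |2 * Real.cos θ - xc| ≤ 2 * u₀ := by
      rw [abs_le, hu₀, hxc]
      have := Real.neg_one_le_cos θ
      constructor <;> linarith
    have h2 := chebT_abs_le h1 n
    rw [chebP_eval, norm_mul, norm_pow, norm_cpt, one_pow, one_mul, Complex.norm_real,
      Real.norm_eq_abs]
    linarith
  · intro θ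
    rw [chebP_eval, norm_mul, norm_pow, norm_cpt, one_pow, one_mul, Complex.norm_real,
      Real.norm_eq_abs]
    exact hBb θ

/-- A family of monic polynomials of all degrees, exponentially small outside an arc. -/
lemma exists_monic_family (ℓ : ℝ) (hℓ : 0 < ℓ) (hℓ2 : ℓ < 2 * Real.pi) :
    ∃ (q B : ℝ), 0 < q ∧ q < 1 ∧ 1 ≤ B ∧ ∀ (θs : ℝ) (n : ℕ), ∃ Q : ℂ[X], Q.Monic ∧ Q.natDegree = n ∧
      (∀ θ : ℝ, Real.cos (θ - θs) ≤ Real.cos (ℓ / 2) → ‖Q.eval (cpt θ)‖ ≤ 2 * q ^ n) ∧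
      ∀ θ : ℝ, ‖Q.eval (cpt θ)‖ ≤ B ^ n := by
  obtain ⟨D, B, P, hD, hB, hm, hd, hsmall, hbd⟩ := exists_monic_small ℓ hℓ hℓ2
  have hD' : (D : ℝ) ≠ 0 := by exact_mod_cast hD.ne'
  set q : ℝ := (1 / 2 : ℝ) ^ ((1 : ℝ) / D) with hq
  have hq0 : 0 < q := by rw [hq]; positivity
  have hq1 : q < 1 := by
    rw [hq]
    exact Real.rpow_lt_one (by norm_num) (by norm_num) (by positivity)
  have hqD : q ^ D = 1 / 2 := by
    rw [hq, ← Real.rpow_natCast, ← Real.rpow_mul (by norm_num)]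
    rw [one_div_mul_cancel hD', Real.rpow_one]
  refine ⟨q, B, hq0, hq1, hB, ?_⟩
  intro θs n
  set h : ℂ[X] := P.scaleRoots (cpt θs) with hh
  have hhm : h.Monic := (monic_scaleRoots_iff _).mpr hm
  have hhd : h.natDegree = D := by rw [hh, natDegree_scaleRoots, hd]
  have heval : ∀ θ : ℝ, ‖h.eval (cpt θ)‖ = ‖P.eval (cpt (θ - θs))‖ := by
    intro θ
    have h1 : cpt θ = cpt θs * cpt (θ - θs) := by
      rw [← cpt_add]
      congr 1
      ring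
    rw [h1, hh, scaleRoots_eval_mul, norm_mul, norm_pow, norm_cpt, one_pow, one_mul]
  refine ⟨X ^ (n % D) * h ^ (n / D), (monic_X_pow _).mul (hhm.pow _), ?_, ?_, ?_⟩
  · rw [((monic_X_pow _).natDegree_mul (hhm.pow _)), hhm.natDegree_pow, natDegree_X_pow, hhd]
    rw [mul_comm (n / D) D]
    exact Nat.mod_add_div n D
  · intro θ hθ
    rw [eval_mul, eval_pow, eval_pow, eval_X, norm_mul, norm_pow, norm_pow, norm_cpt, one_pow,
      one_mul, heval]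
    have h1 := hsmall (θ - θs) hθ
    have h2 : ‖P.eval (cpt (θ - θs))‖ ^ (n / D) ≤ (1 / 2 : ℝ) ^ (n / D) := by
      gcongr
    refine le_trans h2 ?_
    have h3 : q ^ n = (1 / 2 : ℝ) ^ (n / D) * q ^ (n % D) := by
      conv_lhs => rw [← Nat.div_add_mod n D]
      rw [pow_add, pow_mul, hqD]
    have h4 : (1 / 2 : ℝ) ≤ q ^ (n % D) := by
      rw [← hqD]
      exact pow_le_pow_of_le_one hq0.le hq1.le (Nat.mod_lt n hD).le
    rw [h3]
    have h5 : 0 ≤ (1 / 2 : ℝ) ^ (n / D) := by positivity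
    nlinarith
  · intro θ
    rw [eval_mul, eval_pow, eval_pow, eval_X, norm_mul, norm_pow, norm_pow, norm_cpt, one_pow,
      one_mul, heval]
    have h2 : ‖P.eval (cpt (θ - θs))‖ ^ (n / D) ≤ B ^ (n / D) := by
      gcongr
      exact hbd _
    refine le_trans h2 ?_
    exact pow_le_pow_right₀ hB (Nat.div_le_self n D)

end Vale.Agent.Lib.P110
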