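import Vale.Agent.Lib.P110.Window

namespace Vale.Agent.Lib.P110

open Finset

/-- the window sequence -/
noncomputable def winSeqOf (W : ℝ → ℝ) (N : ℕ) (x₀ : ℝ) : ℕ → ℝ :=
  fun k => W ((k : ℝ) / N - x₀)

lemma Y_expand {ι : Type} [Fintype ι] (β : ι → ℂ) (t : ι → ℝ) {W : ℝ → ℝ}
    (hW : ∀ y : ℝ, (W y : ℂ) = ∑ i, β i * Complex.exp (Complex.I * (t i : ℂ) * (y : ℂ)))
    (a : ℕ → ℤ) (N : ℕ) (x₀ θ : ℝ) :
    Ypoly (winSeq (winSeqOf W N x₀) a) N θ =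
      ∑ i, β i * Complex.exp (-(Complex.I * (t i : ℂ) * (x₀ : ℂ))) *
        polyAt a N (θ + t i / N) := by
  unfold Ypoly polyAt
  have h1 : ∀ k ∈ range N, (((winSeq (winSeqOf W N x₀) a k : ℝ)) : ℂ) *
      Complex.exp (Complex.I * (k : ℂ) * (θ : ℂ)) =
      ∑ i, β i * Complex.exp (-(Complex.I * (t i : ℂ) * (x₀ : ℂ))) *
        ((a k : ℂ) * Complex.exp (Complex.I * (k : ℂ) * ((θ + t i / N : ℝ) : ℂ))) := by
    intro k _
    unfold winSeq winSeqOf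
    push_cast
    have h2 := hW ((k : ℝ) / N - x₀)
    push_cast at h2
    rw [h2, Finset.sum_mul, Finset.sum_mul]
    refine Finset.sum_congr rfl fun i _ => ?_
    have h3 : Complex.I * (t i : ℂ) * ((k : ℂ) / (N : ℂ) - (x₀ : ℂ)) =
        -(Complex.I * (t i : ℂ) * (x₀ : ℂ)) + Complex.I * (k : ℂ) * ((t i : ℂ) / (N : ℂ)) := by ring
    have h4 : Complex.I * (k : ℂ) * ((θ : ℂ) + (t i : ℂ) / (N : ℂ)) =
        Complex.I * (k : ℂ) * (θ : ℂ) + Complex.I * (k : ℂ) * ((t i : ℂ) / (N : ℂ)) := by ring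
    rw [h3, h4, Complex.exp_add, Complex.exp_add]
    ring
  rw [Finset.sum_congr rfl h1, Finset.sum_comm]
  refine Finset.sum_congr rfl fun i _ => ?_
  rw [Finset.mul_sum]

lemma norm_exp_I_real (x : ℝ) : ‖Complex.exp (Complex.I * (x : ℂ))‖ = 1 := by
  rw [mul_comm, Complex.norm_exp_ofReal_mul_I]

lemma Y_approx {ι : Type} [Fintype ι] (β : ι → ℂ) (t : ι → ℝ) {W : ℝ → ℝ}
    (hW : ∀ y : ℝ, (W y : ℂ) = ∑ i, β i * Complex.exp (Complex.I * (t i : ℂ) * (y : ℂ)))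
    (a : ℕ → ℤ) (N : ℕ) (x₀ θ c e : ℝ)
    (hr : ∀ i, ‖polyAt a N (θ + t i / N) - polyAt a N θ *
      Complex.exp (Complex.I * (c : ℂ) * (t i : ℂ))‖ ≤ e) :
    ‖Ypoly (winSeq (winSeqOf W N x₀) a) N θ - polyAt a N θ * (W (c - x₀) : ℂ)‖ ≤
      (∑ i, ‖β i‖) * e := by
  rw [Y_expand β t hW, hW (c - x₀), Finset.mul_sum, ← Finset.sum_sub_distrib, Finset.sum_mul]
  refine le_trans (norm_sum_le _ _) (Finset.sum_le_sum fun i _ => ?_)
  have h1 : β i * Complex.exp (-(Complex.I * (t i : ℂ) * (x₀ : ℂ))) * polyAt a N (θ + t i / N) -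
      polyAt a N θ * (β i * Complex.exp (Complex.I * (t i : ℂ) * ((c - x₀ : ℝ) : ℂ))) =
      β i * Complex.exp (-(Complex.I * (t i : ℂ) * (x₀ : ℂ))) * (polyAt a N (θ + t i / N) -
        polyAt a N θ * Complex.exp (Complex.I * (c : ℂ) * (t i : ℂ))) := by
    have h2 : Complex.I * (t i : ℂ) * ((c - x₀ : ℝ) : ℂ) =
        -(Complex.I * (t i : ℂ) * (x₀ : ℂ)) + Complex.I * (c : ℂ) * (t i : ℂ) := by
      push_cast
      ring
    rw [h2, Complex.exp_add]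
    ring
  rw [h1, norm_mul, norm_mul]
  have h3 : ‖Complex.exp (-(Complex.I * (t i : ℂ) * (x₀ : ℂ)))‖ = 1 := by
    have : -(Complex.I * (t i : ℂ) * (x₀ : ℂ)) = Complex.I * ((-(t i * x₀) : ℝ) : ℂ) := by
      push_cast
      ring
    rw [this, norm_exp_I_real]
  rw [h3, mul_one]
  have h4 := hr i
  gcongr

lemma trig_lip {ι : Type} [Fintype ι] (β : ι → ℂ) (t : ι → ℝ) {W : ℝ → ℝ}
    (hW : ∀ y : ℝ, (W y : ℂ) = ∑ i, β i * Complex.exp (Complex.I * (t i : ℂ) * (y : ℂ)))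
    (y y' : ℝ) : |W y - W y'| ≤ (∑ i, ‖β i‖ * |t i|) * |y - y'| := by
  have h1 : ((W y - W y' : ℝ) : ℂ) = ∑ i, β i *
      (Complex.exp (Complex.I * ((t i * y : ℝ) : ℂ)) -
        Complex.exp (Complex.I * ((t i * y' : ℝ) : ℂ))) := by
    push_cast
    rw [hW y, hW y', ← Finset.sum_sub_distrib]
    refine Finset.sum_congr rfl fun i _ => ?_
    rw [mul_sub]
    congr 3 <;> ring
  have h2 : |W y - W y'| = ‖((W y - W y' : ℝ) : ℂ)‖ := by
    rw [Complex.norm_real, Real.norm_eq_abs]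
  rw [h2, h1, Finset.sum_mul]
  refine le_trans (norm_sum_le _ _) (Finset.sum_le_sum fun i _ => ?_)
  rw [norm_mul, mul_assoc]
  apply mul_le_mul_of_nonneg_left _ (norm_nonneg _)
  refine le_trans (norm_cexp_sub_cexp_le _ _) (le_of_eq ?_)
  rw [← mul_sub, abs_mul]

lemma winSeqOf_lip {W : ℝ → ℝ} {Lip : ℝ} (hL : ∀ y y' : ℝ, |W y - W y'| ≤ Lip * |y - y'|)
    (N : ℕ) (x₀ : ℝ) (k k' : ℕ) :
    |winSeqOf W N x₀ k - winSeqOf W N x₀ k'| ≤ Lip * |(k : ℝ) - k'| / N := by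
  unfold winSeqOf
  refine le_trans (hL _ _) (le_of_eq ?_)
  have h1 : (k : ℝ) / N - x₀ - ((k' : ℝ) / N - x₀) = ((k : ℝ) - k') / N := by ring
  rw [h1, abs_div, Nat.abs_cast]
  ring

lemma mass_lower {W : ℝ → ℝ} {r x₀ : ℝ} {N : ℕ} (hr : 0 < r) (hW : ∀ y : ℝ, |y| ≤ r / 2 → 1 / 2 ≤ W y)
    (hx1 : r ≤ x₀) (hx2 : x₀ ≤ 1 - r) (hN : 2 / r ≤ N) :
    r / 8 * N ≤ ∑ k ∈ range N, winSeqOf W N x₀ k ^ 2 := by
  have hrN : 2 ≤ r * N := by
    rw [div_le_iff₀ hr] at hN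
    linarith
  have hNpos : (0 : ℝ) < N := by
    by_contra hc
    have : (N : ℝ) = 0 := le_antisymm (not_lt.mp hc) (Nat.cast_nonneg _)
    rw [this] at hrN
    norm_num at hrN
  set k₀ : ℕ := ⌈(N : ℝ) * (x₀ - r / 2)⌉₊ with hk₀
  set m : ℕ := ⌊r * (N : ℝ)⌋₊ with hm
  have hbase : 0 ≤ (N : ℝ) * (x₀ - r / 2) := by
    apply mul_nonneg hNpos.le
    linarith
  have hk₀1 : (N : ℝ) * (x₀ - r / 2) ≤ k₀ := Nat.le_ceil _
  have hk₀2 : (k₀ : ℝ) < (N : ℝ) * (x₀ - r / 2) + 1 := Nat.ceil_lt_add_one hbase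
  have hm1 : (m : ℝ) ≤ r * N := Nat.floor_le (by positivity)
  have hm2 : r * N < (m : ℝ) + 1 := Nat.lt_floor_add_one _
  have hmem : ∀ k ∈ Finset.Ico k₀ (k₀ + m), k < N ∧ |(k : ℝ) / N - x₀| ≤ r / 2 := by
    intro k hk
    have hk' := Finset.mem_Ico.mp hk
    have h1 : (k₀ : ℝ) ≤ k := by exact_mod_cast hk'.1
    have h2 : (k : ℝ) + 1 ≤ (k₀ : ℝ) + m := by exact_mod_cast hk'.2
    have h3 : (k : ℝ) < (N : ℝ) * (x₀ + r / 2) := by nlinarith
    constructor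
    · have : (k : ℝ) < N := by nlinarith
      exact_mod_cast this
    · rw [abs_le]
      constructor
      · have : (N : ℝ) * (x₀ - r / 2) ≤ k := by linarith
        have h4 : x₀ - r / 2 ≤ (k : ℝ) / N := by
          rw [le_div_iff₀ hNpos]
          linarith
        linarith
      · have h4 : (k : ℝ) / N ≤ x₀ + r / 2 := by
          rw [div_le_iff₀ hNpos]
          linarith
        linarith
  have hsub : Finset.Ico k₀ (k₀ + m) ⊆ range N := by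
    intro k hk
    exact Finset.mem_range.mpr (hmem k hk).1
  have h5 : ∑ k ∈ Finset.Ico k₀ (k₀ + m), (1 / 2 : ℝ) ^ 2 ≤
      ∑ k ∈ Finset.Ico k₀ (k₀ + m), winSeqOf W N x₀ k ^ 2 := by
    refine Finset.sum_le_sum fun k hk => ?_
    have h6 := hW _ (hmem k hk).2
    unfold winSeqOf
    exact pow_le_pow_left₀ (by norm_num) h6 2
  have h7 : ∑ k ∈ Finset.Ico k₀ (k₀ + m), winSeqOf W N x₀ k ^ 2 ≤
      ∑ k ∈ range N, winSeqOf W N x₀ k ^ 2 :=
    Finset.sum_le_sum_of_subset_of_nonneg hsub (fun _ _ _ => by positivity)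
  simp only [sum_const, Nat.card_Ico, add_tsub_cancel_left, nsmul_eq_mul] at h5
  nlinarith

/-- **Full oscillation.** -/
theorem flat_oscillation (ℓ r : ℝ) (hℓ : 0 < ℓ) (hℓ2 : ℓ < 2 * Real.pi) (hr : 0 < r) (hr1 : r ≤ 1 / 2) :
    ∃ ε : ℝ, 0 < ε ∧ ∃ N₀ : ℕ, ∀ N : ℕ, N₀ ≤ N → ∀ a : ℕ → ℤ, IsLittlewood a N → IsFlat ε a N →
      ∀ θs x₀ : ℝ, r ≤ x₀ → x₀ ≤ 1 - r → ∃ θ : ℝ, Real.cos (ℓ / 2) < Real.cos (θ - θs) ∧
        |phaseDeriv a N θ / N - x₀| ≤ r := by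
  obtain ⟨δ, hδ, hgap⟩ := gap_core 4 ℓ (r / 8) hℓ hℓ2 (by positivity)
  set δ' : ℝ := min δ 1 with hδ'
  have hδ'0 : 0 < δ' := lt_min hδ one_pos
  have hδ'1 : δ' ≤ δ := min_le_left _ _
  have hδ'2 : δ' ≤ 1 := min_le_right _ _
  set s : ℝ := Real.sqrt δ' with hs
  have hs0 : 0 < s := Real.sqrt_pos.mpr hδ'0
  have hs1 : s ≤ 1 := by
    rw [hs]
    exact Real.sqrt_le_one.mpr hδ'2
  have hss : s ^ 2 = δ' := Real.sq_sqrt hδ'0.le
  obtain ⟨A, Cc, hA1, hA2⟩ := exists_window hr (by linarith : r ≤ 1) (by positivity : 0 < s / 3)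
  obtain ⟨ι, _, β, t, hW⟩ := isTrigR_winW A Cc
  set SB : ℝ := ∑ i, ‖β i‖ with hSB
  have hSB0 : 0 ≤ SB := Finset.sum_nonneg fun i _ => norm_nonneg _
  set K : ℝ := 1 + ∑ i, |t i| with hK
  have hK1 : 1 ≤ K := by
    have : 0 ≤ ∑ i, |t i| := Finset.sum_nonneg fun i _ => abs_nonneg _
    linarith
  have htK : ∀ i, |t i| ≤ K := by
    intro i
    have h1 : |t i| ≤ ∑ i, |t i| :=
      Finset.single_le_sum (f := fun i => |t i|) (fun _ _ => abs_nonneg _) (Finset.mem_univ i)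
    linarith
  set η : ℝ := min 1 ((s / 2) / (SB + 1)) with hη
  have hη0 : 0 < η := lt_min one_pos (by positivity)
  have hη1 : η ≤ 1 := min_le_left _ _
  have hη2 : SB * η ≤ s / 2 := by
    have h1 : η ≤ (s / 2) / (SB + 1) := min_le_right _ _
    have h2 : SB * η ≤ SB * ((s / 2) / (SB + 1)) := by gcongr
    have h3 : SB * ((s / 2) / (SB + 1)) ≤ s / 2 := by
      rw [mul_div_assoc', div_le_iff₀ (by positivity)]
      nlinarith
    linarith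
  obtain ⟨ε₀, hε₀, hrig⟩ := rigidity K η hK1 hη0 hη1
  set Lip : ℝ := ∑ i, ‖β i‖ * |t i| with hLip
  have hLip0 : 0 ≤ Lip := Finset.sum_nonneg fun i _ => by positivity
  obtain ⟨N₀, hN₀⟩ := hgap Lip hLip0
  refine ⟨min ε₀ 1, lt_min hε₀ one_pos, max N₀ (⌈2 / r⌉₊ + 1), ?_⟩
  intro N hN a hL hflat θs x₀ hx1 hx2
  have hN1 : N₀ ≤ N := le_trans (le_max_left _ _) hN
  have hN2 : ⌈2 / r⌉₊ + 1 ≤ N := le_trans (le_max_right _ _) hN
  have hNr : 2 / r ≤ N := by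
    have h1 := Nat.le_ceil (2 / r)
    have h2 : ((⌈2 / r⌉₊ : ℕ) : ℝ) ≤ N := by
      exact_mod_cast (by omega : ⌈2 / r⌉₊ ≤ N)
    linarith
  have hNone : 1 ≤ N := by omega
  have hNR : (0 : ℝ) < N := by exact_mod_cast hNone
  set ε : ℝ := min ε₀ 1 with hε
  have hε0 : 0 < ε := lt_min hε₀ one_pos
  have hε1 : ε ≤ ε₀ := min_le_left _ _
  have hε2 : ε ≤ 1 := min_le_right _ _
  have hR := hrig ε hε0.le hε1 N hNone a hflat
  have hsq : 0 < Real.sqrt N := Real.sqrt_pos.mpr hNR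
  have hYbd : ∀ θ : ℝ, ‖Ypoly (winSeq (winSeqOf (winW A Cc) N x₀) a) N θ‖ ≤
      (3 / 2 * winW A Cc (phaseDeriv a N θ / N - x₀) + s / 2) * Real.sqrt N := by
    intro θ
    have h1 := Y_approx β t hW a N x₀ θ (phaseDeriv a N θ / N) (η * Real.sqrt N)
      (fun i => (hR θ).2.2 (t i) (htK i))
    have h2 := norm_polyAt_le hflat hε2 θ
    have h3 := winW_mem A Cc (phaseDeriv a N θ / N - x₀)
    have h4 : ‖polyAt a N θ * (winW A Cc (phaseDeriv a N θ / N - x₀) : ℂ)‖ ≤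
        3 / 2 * Real.sqrt N * winW A Cc (phaseDeriv a N θ / N - x₀) := by
      rw [norm_mul, Complex.norm_real, Real.norm_eq_abs, abs_of_nonneg h3.1]
      exact mul_le_mul_of_nonneg_right h2 h3.1
    have h5 := norm_sub_norm_le (Ypoly (winSeq (winSeqOf (winW A Cc) N x₀) a) N θ)
      (polyAt a N θ * (winW A Cc (phaseDeriv a N θ / N - x₀) : ℂ))
    have h6 : SB * (η * Real.sqrt N) ≤ s / 2 * Real.sqrt N := by
      rw [← mul_assoc]
      gcongr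
    nlinarith
  by_contra hcon
  push_neg at hcon
  refine hN₀ N hN1 a (winSeqOf (winW A Cc) N x₀) θs hL ?_ ?_ ?_ ?_ ?_
  · intro k
    unfold winSeqOf
    have h := winW_mem A Cc ((k : ℝ) / N - x₀)
    rw [abs_le]
    constructor <;> linarith
  · intro k k'
    exact winSeqOf_lip (trig_lip β t hW) N x₀ k k'
  · exact mass_lower hr hA1 hx1 hx2 hNr
  · intro θ
    have h1 := hYbd θ
    have h3 := winW_mem A Cc (phaseDeriv a N θ / N - x₀)
    have h4 : (3 / 2 * winW A Cc (phaseDeriv a N θ / N - x₀) + s / 2) * Real.sqrt N ≤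
        2 * Real.sqrt N := by
      gcongr
      linarith
    have h5 := le_trans h1 h4
    calc _ ≤ (2 * Real.sqrt N) ^ 2 := pow_le_pow_left₀ (norm_nonneg _) h5 2
      _ = 4 * N := by
        rw [mul_pow, Real.sq_sqrt hNR.le]
        norm_num
  · intro θ hθ
    have h1 := hYbd θ
    have h2 := hcon θ hθ
    have h3 := hR θ
    have h4 : |phaseDeriv a N θ / N - x₀| ≤ 2 := by
      rw [abs_le]
      constructor <;> linarith [h3.1, h3.2.1]
    have h5 := hA2 _ h2.le h4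
    have h6 : (3 / 2 * winW A Cc (phaseDeriv a N θ / N - x₀) + s / 2) * Real.sqrt N ≤
        s * Real.sqrt N := by
      gcongr
      linarith
    have h7 := le_trans h1 h6
    calc _ ≤ (s * Real.sqrt N) ^ 2 := pow_le_pow_left₀ (norm_nonneg _) h7 2
      _ = δ' * N := by
        rw [mul_pow, Real.sq_sqrt hNR.le, hss]
      _ ≤ δ * N := by gcongr

end Vale.Agent.Lib.P110
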