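import Vale.Agent.Lib.P110.Osc

namespace Vale.Agent.Lib.P110

open Finset

lemma exp_nat_periodic (j : ℕ) (θ : ℝ) (k : ℤ) :
    Complex.exp (Complex.I * (j : ℂ) * ((θ + k * (2 * Real.pi) : ℝ) : ℂ)) =
      Complex.exp (Complex.I * (j : ℂ) * (θ : ℂ)) := by
  have h1 : Complex.I * (j : ℂ) * ((θ + k * (2 * Real.pi) : ℝ) : ℂ) =
      Complex.I * (j : ℂ) * (θ : ℂ) + ((j * k : ℤ) : ℂ) * (2 * Real.pi * Complex.I) := by
    push_cast
    ring
  rw [h1, Complex.exp_add, Complex.exp_int_mul_two_pi_mul_I, mul_one]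

lemma polyAt_periodic (a : ℕ → ℤ) (N : ℕ) (θ : ℝ) (k : ℤ) :
    polyAt a N (θ + k * (2 * Real.pi)) = polyAt a N θ := by
  unfold polyAt
  refine Finset.sum_congr rfl fun j _ => ?_
  rw [exp_nat_periodic]

lemma zDerivAt_periodic (a : ℕ → ℤ) (N : ℕ) (θ : ℝ) (k : ℤ) :
    zDerivAt a N (θ + k * (2 * Real.pi)) = zDerivAt a N θ := by
  unfold zDerivAt
  refine Finset.sum_congr rfl fun j _ => ?_
  rw [exp_nat_periodic]

lemma phaseDeriv_periodic (a : ℕ → ℤ) (N : ℕ) (θ : ℝ) (k : ℤ) :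
    phaseDeriv a N (θ + k * (2 * Real.pi)) = phaseDeriv a N θ := by
  unfold phaseDeriv
  rw [polyAt_periodic, zDerivAt_periodic]

lemma exists_shift {ℓ x : ℝ} (hℓ : 0 < ℓ) (h : Real.cos (ℓ / 2) < Real.cos x) :
    ∃ k : ℤ, |x - k * (2 * Real.pi)| < ℓ / 2 := by
  have hpi := Real.pi_pos
  have h2pi : (0 : ℝ) < 2 * Real.pi := by positivity
  set x' := toIocMod h2pi (-Real.pi) x with hx'
  have hmem := toIocMod_mem_Ioc h2pi (-Real.pi) x
  rw [← hx'] at hmem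
  have hk := self_sub_toIocDiv_zsmul h2pi (-Real.pi) x
  rw [← hx', zsmul_eq_mul] at hk
  refine ⟨toIocDiv h2pi (-Real.pi) x, ?_⟩
  rw [hk]
  by_contra hc
  have hc' : ℓ / 2 ≤ |x'| := not_lt.mp hc
  have habs : |x'| ≤ Real.pi := by
    rw [abs_le]
    constructor
    · exact hmem.1.le
    · have := hmem.2
      linarith
  have h3 : Real.cos |x'| ≤ Real.cos (ℓ / 2) :=
    Real.cos_le_cos_of_nonneg_of_le_pi (by positivity) habs hc'
  rw [Real.cos_abs] at h3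
  have h4 : Real.cos x' = Real.cos x := by
    rw [← hk]
    exact Real.cos_sub_int_mul_two_pi x _
  rw [h4] at h3
  linarith

/-- **Full oscillation of the phase derivative** in interval form. -/
theorem phase_osc (ℓ r : ℝ) (hℓ : 0 < ℓ) (hr : 0 < r) :
    ∃ ε : ℝ, 0 < ε ∧ ∃ N₀ : ℕ, ∀ N : ℕ, N₀ ≤ N → ∀ a : ℕ → ℤ, IsLittlewood a N → IsFlat ε a N →
      ∀ θ₁ x₀ : ℝ, 0 ≤ x₀ → x₀ ≤ 1 → ∃ θ : ℝ, θ₁ < θ ∧ θ < θ₁ + ℓ ∧
        |phaseDeriv a N θ / N - x₀| ≤ r := by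
  have hpi := Real.pi_pos
  set ℓ' : ℝ := min ℓ Real.pi with hℓ'
  have hℓ'0 : 0 < ℓ' := lt_min hℓ hpi
  have hℓ'1 : ℓ' ≤ ℓ := min_le_left _ _
  have hℓ'2 : ℓ' ≤ Real.pi := min_le_right _ _
  set r' : ℝ := min (r / 2) (1 / 4) with hr'
  have hr'0 : 0 < r' := lt_min (by positivity) (by norm_num)
  have hr'1 : r' ≤ r / 2 := min_le_left _ _
  have hr'2 : r' ≤ 1 / 4 := min_le_right _ _
  obtain ⟨ε, hε, N₀, h⟩ := flat_oscillation ℓ' r' hℓ'0 (by linarith) hr'0 (by linarith)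
  refine ⟨ε, hε, N₀, ?_⟩
  intro N hN a hL hflat θ₁ x₀ hx0 hx1
  set x₁ : ℝ := max r' (min x₀ (1 - r')) with hx₁
  have hx₁1 : r' ≤ x₁ := le_max_left _ _
  have hx₁2 : x₁ ≤ 1 - r' := max_le (by linarith) (min_le_right _ _)
  have hclose : |x₁ - x₀| ≤ r' := by
    have h_a : min x₀ (1 - r') ≤ x₁ := le_max_right _ _
    rw [abs_le]
    constructor
    · rcases le_total x₀ (1 - r') with h1 | h1
      · rw [min_eq_left h1] at h_a
        linarith
      · rw [min_eq_right h1] at h_a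
        linarith
    · rcases le_total r' (min x₀ (1 - r')) with h1 | h1
      · have h2 : x₁ = min x₀ (1 - r') := max_eq_right h1
        have := min_le_left x₀ (1 - r')
        linarith
      · have h2 : x₁ = r' := max_eq_left h1
        linarith
  obtain ⟨θ, hθ, hc⟩ := h N hN a hL hflat (θ₁ + ℓ' / 2) x₁ hx₁1 hx₁2
  obtain ⟨k, hk⟩ := exists_shift hℓ'0 hθ
  refine ⟨θ - k * (2 * Real.pi), ?_, ?_, ?_⟩
  · have := (abs_lt.mp hk).1
    linarith
  · have := (abs_lt.mp hk).2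
    linarith
  · have h1 : phaseDeriv a N (θ - k * (2 * Real.pi)) = phaseDeriv a N θ := by
      have := phaseDeriv_periodic a N (θ - k * (2 * Real.pi)) k
      rw [sub_add_cancel] at this
      exact this.symm
    rw [h1]
    have h2 := abs_le.mp hc
    have h3 := abs_le.mp hclose
    rw [abs_le]
    constructor <;> linarith [h2.1, h2.2, h3.1, h3.2]

lemma winSeq_one (a : ℕ → ℤ) : winSeq (fun _ => 1) a = fun k => (a k : ℝ) := by
  funext k
  unfold winSeq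
  ring

/-- **No spectral gap**: a Littlewood polynomial with `|P|² ≤ C N` on the circle has `|P|² > δ N`
somewhere on every arc of length `ℓ`. -/
theorem littlewood_no_gap (C ℓ : ℝ) (hℓ : 0 < ℓ) :
    ∃ δ : ℝ, 0 < δ ∧ ∃ N₀ : ℕ, ∀ N : ℕ, N₀ ≤ N → ∀ a : ℕ → ℤ, IsLittlewood a N →
      (∀ θ : ℝ, ‖polyAt a N θ‖ ^ 2 ≤ C * N) →
      ∀ θ₁ : ℝ, ∃ θ : ℝ, θ₁ < θ ∧ θ < θ₁ + ℓ ∧ δ * N < ‖polyAt a N θ‖ ^ 2 := by
  have hpi := Real.pi_pos
  set ℓ' : ℝ := min ℓ Real.pi with hℓ'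
  have hℓ'0 : 0 < ℓ' := lt_min hℓ hpi
  have hℓ'1 : ℓ' ≤ ℓ := min_le_left _ _
  have hℓ'2 : ℓ' ≤ Real.pi := min_le_right _ _
  obtain ⟨δ, hδ, h⟩ := gap_core C ℓ' 1 hℓ'0 (by linarith) one_pos
  obtain ⟨N₀, hN₀⟩ := h 0 le_rfl
  refine ⟨δ, hδ, N₀, ?_⟩
  intro N hN a hL hsup θ₁
  have hY : ∀ θ, Ypoly (winSeq (fun _ => 1) a) N θ = polyAt a N θ := by
    intro θ
    rw [winSeq_one, polyAt_eq_Ypoly]
  by_contra hcon
  push Not at hcon
  refine hN₀ N hN a (fun _ => 1) (θ₁ + ℓ' / 2) hL ?_ ?_ ?_ ?_ ?_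
  · intro k
    simp
  · intro k k'
    simp
  · simp
  · intro θ
    rw [hY]
    exact hsup θ
  · intro θ hθ
    rw [hY]
    obtain ⟨k, hk⟩ := exists_shift hℓ'0 hθ
    have h1 := hcon (θ - k * (2 * Real.pi)) (by
      have := (abs_lt.mp hk).1
      linarith) (by
      have := (abs_lt.mp hk).2
      linarith)
    have h2 := polyAt_periodic a N (θ - k * (2 * Real.pi)) k
    rw [sub_add_cancel] at h2
    rw [h2]
    exact h1

/-- **Unbounded variation of the phase derivative.** -/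
theorem phase_variation (V : ℝ) :
    ∃ ε : ℝ, 0 < ε ∧ ∃ N₀ : ℕ, ∀ N : ℕ, N₀ ≤ N → ∀ a : ℕ → ℤ, IsLittlewood a N → IsFlat ε a N →
      ENNReal.ofReal (V * N) < eVariationOn (phaseDeriv a N) (Set.Icc 0 (2 * Real.pi)) := by
  have hpi := Real.pi_pos
  obtain ⟨n, hn⟩ : ∃ n : ℕ, 2 * V + 1 ≤ n ∧ 1 ≤ n := by
    refine ⟨⌈2 * V + 1⌉₊ + 1, ?_, by omega⟩
    have := Nat.le_ceil (2 * V + 1)
    push_cast
    linarith
  have hn1 : (1 : ℝ) ≤ n := by exact_mod_cast hn.2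
  have hn0 : (0 : ℝ) < n := by linarith
  set Δ : ℝ := 2 * Real.pi / n with hΔ
  have hΔ0 : 0 < Δ := by positivity
  obtain ⟨ε, hε, N₀, h⟩ := phase_osc Δ (1 / 4) hΔ0 (by norm_num)
  refine ⟨ε, hε, max N₀ 1, ?_⟩
  intro N hN a hL hflat
  have hN1 : N₀ ≤ N := le_trans (le_max_left _ _) hN
  have hN2 : 1 ≤ N := le_trans (le_max_right _ _) hN
  have hNR : (0 : ℝ) < N := by exact_mod_cast hN2
  set f := phaseDeriv a N with hf
  have hind : ∀ m : ℕ, ENNReal.ofReal ((m : ℝ) * ((N : ℝ) / 2)) ≤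
      eVariationOn f (Set.Icc 0 ((m : ℝ) * Δ)) := by
    intro m
    induction m with
    | zero => simp
    | succ m ih =>
      obtain ⟨θ, h1, h2, h3⟩ := h N hN1 a hL hflat ((m : ℝ) * Δ) 0 le_rfl zero_le_one
      obtain ⟨θ', h1', h2', h3'⟩ := h N hN1 a hL hflat ((m : ℝ) * Δ) 1 zero_le_one le_rfl
      have hstep : ((m : ℝ) + 1) * Δ = (m : ℝ) * Δ + Δ := by ring
      have hm0 : 0 ≤ (m : ℝ) * Δ := by positivity
      have hadd := eVariationOn.Icc_add_Icc f (s := Set.univ) (a := 0) (b := (m : ℝ) * Δ)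
        (c := ((m : ℝ) + 1) * Δ) hm0 (by nlinarith) (Set.mem_univ _)
      simp only [Set.univ_inter] at hadd
      push_cast
      rw [← hadd]
      have hd : ENNReal.ofReal ((N : ℝ) / 2) ≤
          eVariationOn f (Set.Icc ((m : ℝ) * Δ) (((m : ℝ) + 1) * Δ)) := by
        have hθ : θ ∈ Set.Icc ((m : ℝ) * Δ) (((m : ℝ) + 1) * Δ) :=
          ⟨h1.le, by rw [hstep]; exact h2.le⟩
        have hθ' : θ' ∈ Set.Icc ((m : ℝ) * Δ) (((m : ℝ) + 1) * Δ) :=
          ⟨h1'.le, by rw [hstep]; exact h2'.le⟩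
        refine le_trans ?_ (eVariationOn.edist_le f hθ hθ')
        rw [edist_dist, Real.dist_eq]
        apply ENNReal.ofReal_le_ofReal
        have h4 := abs_le.mp h3
        have h5 := abs_le.mp h3'
        have h6 : f θ' / N - f θ / N ≥ 1 / 2 := by
          have e1 : f θ / N - 0 = f θ / N := sub_zero _
          rw [e1] at h4
          linarith [h4.2, h5.1]
        have h7 : f θ' - f θ ≥ (N : ℝ) / 2 := by
          have h8 : f θ' / N - f θ / N = (f θ' - f θ) / N := by ring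
          rw [h8, ge_iff_le, le_div_iff₀ hNR] at h6
          linarith
        rw [abs_sub_comm]
        exact le_trans h7 (le_abs_self _)
      have hsplit : ((m : ℝ) + 1) * ((N : ℝ) / 2) = (m : ℝ) * ((N : ℝ) / 2) + (N : ℝ) / 2 := by ring
      rw [hsplit, ENNReal.ofReal_add (by positivity) (by positivity)]
      exact add_le_add ih hd
  have hfinal := hind n
  have hnΔ : (n : ℝ) * Δ = 2 * Real.pi := by
    rw [hΔ]
    field_simp
  rw [hnΔ] at hfinal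
  refine lt_of_lt_of_le ?_ hfinal
  apply (ENNReal.ofReal_lt_ofReal_iff (by positivity)).mpr
  have : V < (n : ℝ) / 2 := by linarith [hn.1]
  calc V * N < ((n : ℝ) / 2) * N := by gcongr
    _ = _ := by ring

end Vale.Agent.Lib.P110
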