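import Vale.Agent.Lib.P110.Defs

namespace Vale.Agent.Lib.P110

open Complex Finset Metric

/-- entire extension -/
noncomputable def entA (a : ℕ → ℤ) (N : ℕ) (ζ : ℂ) : ℂ :=
  ∑ k ∈ range N, (a k : ℂ) * cexp (I * (k : ℂ) * ζ)

noncomputable def pz (a : ℕ → ℤ) (N : ℕ) (z : ℂ) : ℂ :=
  ∑ k ∈ range N, (a k : ℂ) * z ^ k

noncomputable def revz (a : ℕ → ℤ) (N : ℕ) (z : ℂ) : ℂ :=
  ∑ k ∈ range N, (a k : ℂ) * z ^ (N - 1 - k)

lemma entA_ofReal (a : ℕ → ℤ) (N : ℕ) (θ : ℝ) : entA a N (θ : ℂ) = polyAt a N θ := rfl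

lemma entA_eq_pz (a : ℕ → ℤ) (N : ℕ) (ζ : ℂ) : entA a N ζ = pz a N (cexp (I * ζ)) := by
  unfold entA pz
  refine Finset.sum_congr rfl fun k _ => ?_
  rw [← Complex.exp_nat_mul]
  congr 2
  ring

lemma differentiable_pz (a : ℕ → ℤ) (N : ℕ) : Differentiable ℂ (pz a N) := by
  unfold pz
  fun_prop

lemma differentiable_revz (a : ℕ → ℤ) (N : ℕ) : Differentiable ℂ (revz a N) := by
  unfold revz
  fun_prop

lemma differentiable_entA (a : ℕ → ℤ) (N : ℕ) : Differentiable ℂ (entA a N) := by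
  unfold entA
  fun_prop

lemma pz_conj (a : ℕ → ℤ) (N : ℕ) (z : ℂ) :
    pz a N ((starRingEnd ℂ) z) = (starRingEnd ℂ) (pz a N z) := by
  unfold pz
  rw [map_sum]
  refine Finset.sum_congr rfl fun k _ => ?_
  simp [map_mul, map_pow]

lemma revz_eq (a : ℕ → ℤ) (N : ℕ) {z : ℂ} (hz : z ≠ 0) :
    revz a N z = z ^ (N - 1) * pz a N z⁻¹ := by
  unfold revz pz
  rw [Finset.mul_sum]
  refine Finset.sum_congr rfl fun k hk => ?_
  have hk' : k ≤ N - 1 := by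
    have := Finset.mem_range.mp hk
    omega
  have h1 : z ^ (N - 1) = z ^ (N - 1 - k) * z ^ k := by
    rw [← pow_add]
    congr 1
    omega
  rw [h1, inv_pow]
  field_simp

lemma conj_eq_inv_of_norm_one {z : ℂ} (hz : ‖z‖ = 1) : (starRingEnd ℂ) z = z⁻¹ := by
  rw [Complex.inv_def, Complex.normSq_eq_norm_sq, hz]
  simp

lemma pz_sphere (a : ℕ → ℤ) (N : ℕ) {z : ℂ} (hz : ‖z‖ = 1) :
    ∃ θ : ℝ, z = cexp (I * (θ : ℂ)) ∧ pz a N z = polyAt a N θ := by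
  obtain ⟨θ, hθ⟩ := (Complex.norm_eq_one_iff z).mp hz
  have hz' : z = cexp (I * (θ : ℂ)) := by
    rw [← hθ]
    congr 1
    ring
  refine ⟨θ, hz', ?_⟩
  rw [hz', ← entA_eq_pz, entA_ofReal]

section flat

variable {a : ℕ → ℤ} {N : ℕ} {ε : ℝ}

lemma norm_sq_pz_sphere_le (h : IsFlat ε a N) {z : ℂ} (hz : ‖z‖ = 1) :
    ‖pz a N z‖ ^ 2 ≤ (1 + ε) * N := by
  obtain ⟨θ, _, h2⟩ := pz_sphere a N hz
  have := h θ
  rw [h2]
  have h3 := (abs_le.mp this).2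
  nlinarith

/-- maximum principle on the closed unit disc -/
lemma norm_le_of_sphere {f : ℂ → ℂ} (hf : Differentiable ℂ f) {C : ℝ}
    (hC : ∀ z : ℂ, ‖z‖ = 1 → ‖f z‖ ≤ C) {z : ℂ} (hz : ‖z‖ ≤ 1) : ‖f z‖ ≤ C := by
  have h1 : Bornology.IsBounded (ball (0 : ℂ) 1) := isBounded_ball
  have h2 : DiffContOnCl ℂ f (ball (0 : ℂ) 1) := hf.diffContOnCl
  have h3 : ∀ w ∈ frontier (ball (0 : ℂ) 1), ‖f w‖ ≤ C := by
    intro w hw
    rw [frontier_ball (0 : ℂ) (by norm_num : (1 : ℝ) ≠ 0)] at hw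
    exact hC w (by simpa using hw)
  exact Complex.norm_le_of_forall_mem_frontier_norm_le h1 h2 h3
    (by rw [closure_ball (0 : ℂ) (by norm_num : (1 : ℝ) ≠ 0)]; simpa using hz)

lemma norm_pz_le (h : IsFlat ε a N) (hε : 0 ≤ ε) {z : ℂ} (hz : ‖z‖ ≤ 1) :
    ‖pz a N z‖ ≤ Real.sqrt ((1 + ε) * N) := by
  refine norm_le_of_sphere (differentiable_pz a N) (fun w hw => ?_) hz
  exact Real.le_sqrt_of_sq_le (norm_sq_pz_sphere_le h hw)

lemma norm_revz_le (h : IsFlat ε a N) (hε : 0 ≤ ε) {z : ℂ} (hz : ‖z‖ ≤ 1) :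
    ‖revz a N z‖ ≤ Real.sqrt ((1 + ε) * N) := by
  refine norm_le_of_sphere (differentiable_revz a N) (fun w hw => ?_) hz
  have hw0 : w ≠ 0 := by
    intro h0
    rw [h0] at hw
    simp at hw
  rw [revz_eq a N hw0, ← conj_eq_inv_of_norm_one hw, pz_conj, norm_mul, norm_pow, hw, one_pow,
    one_mul, Complex.norm_conj]
  exact Real.le_sqrt_of_sq_le (norm_sq_pz_sphere_le h hw)

/-- the polynomial `z^{N-1}(P(z)P(1/z) - N)` -/
noncomputable def qz (a : ℕ → ℤ) (N : ℕ) (z : ℂ) : ℂ :=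
  pz a N z * revz a N z - (N : ℂ) * z ^ (N - 1)

lemma differentiable_qz (a : ℕ → ℤ) (N : ℕ) : Differentiable ℂ (qz a N) := by
  unfold qz
  have h1 := differentiable_pz a N
  have h2 := differentiable_revz a N
  fun_prop

lemma qz_eq (a : ℕ → ℤ) (N : ℕ) {z : ℂ} (hz : z ≠ 0) :
    qz a N z = z ^ (N - 1) * (pz a N z * pz a N z⁻¹ - (N : ℂ)) := by
  unfold qz
  rw [revz_eq a N hz]
  ring

lemma norm_qz_sphere (h : IsFlat ε a N) {z : ℂ} (hz : ‖z‖ = 1) : ‖qz a N z‖ ≤ ε * N := by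
  have hz0 : z ≠ 0 := by
    intro h0
    rw [h0] at hz
    simp at hz
  rw [qz_eq a N hz0, norm_mul, norm_pow, hz, one_pow, one_mul, ← conj_eq_inv_of_norm_one hz,
    pz_conj, Complex.mul_conj, Complex.normSq_eq_norm_sq]
  obtain ⟨θ, _, h2⟩ := pz_sphere a N hz
  have h3 := h θ
  rw [h2]
  have : ((‖polyAt a N θ‖ ^ 2 : ℝ) : ℂ) - (N : ℂ) = (((‖polyAt a N θ‖ ^ 2 - (N : ℝ)) : ℝ) : ℂ) := by
    push_cast
    ring
  rw [this, Complex.norm_real, Real.norm_eq_abs]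
  exact h3

lemma norm_qz_le (h : IsFlat ε a N) {z : ℂ} (hz : ‖z‖ ≤ 1) : ‖qz a N z‖ ≤ ε * N :=
  norm_le_of_sphere (differentiable_qz a N) (fun _ hw => norm_qz_sphere h hw) hz

lemma norm_exp_I_mul (ζ : ℂ) : ‖cexp (I * ζ)‖ = Real.exp (-ζ.im) := by
  rw [Complex.norm_exp]
  simp

lemma entA_neg_eq (a : ℕ → ℤ) (N : ℕ) (ζ : ℂ) :
    entA a N (-ζ) = pz a N (cexp (I * ζ))⁻¹ := by
  rw [entA_eq_pz, ← Complex.exp_neg]
  congr 2
  ring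

/-- key bound for the product `A(ζ)A(-ζ) - N` -/
lemma norm_prod_sub_le_of_nonneg (h : IsFlat ε a N) {ζ : ℂ} (hζ : 0 ≤ ζ.im) :
    ‖entA a N ζ * entA a N (-ζ) - (N : ℂ)‖ ≤ ε * N * Real.exp ((N - 1 : ℕ) * ζ.im) := by
  set z := cexp (I * ζ) with hz
  have hz0 : z ≠ 0 := Complex.exp_ne_zero _
  have hnorm : ‖z‖ = Real.exp (-ζ.im) := norm_exp_I_mul ζ
  have hle : ‖z‖ ≤ 1 := by
    rw [hnorm]
    exact Real.exp_le_one_iff.mpr (by linarith)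
  have h1 := norm_qz_le h hle
  rw [qz_eq a N hz0, norm_mul, norm_pow, hnorm] at h1
  rw [entA_eq_pz a N ζ, entA_neg_eq, ← hz]
  have h2 : Real.exp (-ζ.im) ^ (N - 1) * Real.exp ((N - 1 : ℕ) * ζ.im) = 1 := by
    rw [← Real.exp_nat_mul, ← Real.exp_add]
    simp
  have h3 : 0 < Real.exp ((N - 1 : ℕ) * ζ.im) := Real.exp_pos _
  calc ‖pz a N z * pz a N z⁻¹ - (N : ℂ)‖
      = (Real.exp (-ζ.im) ^ (N - 1) * ‖pz a N z * pz a N z⁻¹ - (N : ℂ)‖)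
          * Real.exp ((N - 1 : ℕ) * ζ.im) := by
        rw [mul_right_comm, h2, one_mul]
    _ ≤ ε * N * Real.exp ((N - 1 : ℕ) * ζ.im) := by gcongr

lemma norm_prod_sub_le (h : IsFlat ε a N) (ζ : ℂ) :
    ‖entA a N ζ * entA a N (-ζ) - (N : ℂ)‖ ≤ ε * N * Real.exp ((N - 1 : ℕ) * |ζ.im|) := by
  rcases le_total 0 ζ.im with h0 | h0
  · rw [abs_of_nonneg h0]
    exact norm_prod_sub_le_of_nonneg h h0
  · have h1 := norm_prod_sub_le_of_nonneg h (ζ := -ζ) (by simpa using h0)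
    rw [abs_of_nonpos h0]
    simpa [mul_comm] using h1

lemma norm_entA_le_of_nonneg (h : IsFlat ε a N) (hε : 0 ≤ ε) {ζ : ℂ} (hζ : 0 ≤ ζ.im) :
    ‖entA a N ζ‖ ≤ Real.sqrt ((1 + ε) * N) := by
  rw [entA_eq_pz]
  refine norm_pz_le h hε ?_
  rw [norm_exp_I_mul]
  exact Real.exp_le_one_iff.mpr (by linarith)

lemma norm_entA_le_of_nonpos (h : IsFlat ε a N) (hε : 0 ≤ ε) {ζ : ℂ} (hζ : ζ.im ≤ 0) :
    ‖entA a N ζ‖ ≤ Real.sqrt ((1 + ε) * N) * Real.exp ((N - 1 : ℕ) * (-ζ.im)) := by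
  rw [entA_eq_pz]
  set z := cexp (I * ζ) with hz
  have hz0 : z ≠ 0 := Complex.exp_ne_zero _
  have hnorm : ‖z‖ = Real.exp (-ζ.im) := norm_exp_I_mul ζ
  have hzinv : ‖z⁻¹‖ ≤ 1 := by
    rw [norm_inv, hnorm, ← Real.exp_neg]
    exact Real.exp_le_one_iff.mpr (by linarith)
  have h1 := norm_revz_le h hε hzinv
  rw [revz_eq a N (inv_ne_zero hz0), inv_inv, norm_mul, norm_pow, norm_inv, hnorm,
    ← Real.exp_neg, ← Real.exp_nat_mul] at h1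
  have h3 : 0 < Real.exp ((N - 1 : ℕ) * (- -ζ.im)) := Real.exp_pos _
  have h2 : Real.exp ((N - 1 : ℕ) * (- -ζ.im)) * ‖pz a N z‖ ≤
      Real.sqrt ((1 + ε) * N) := by
    simpa using h1
  have h4 : Real.exp ((N - 1 : ℕ) * (- -ζ.im)) * Real.exp ((N - 1 : ℕ) * (-ζ.im)) = 1 := by
    rw [← Real.exp_add]
    simp
  calc ‖pz a N z‖ = (Real.exp ((N - 1 : ℕ) * (- -ζ.im)) * ‖pz a N z‖) *
        Real.exp ((N - 1 : ℕ) * (-ζ.im)) := by
        rw [mul_right_comm, h4, one_mul]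
    _ ≤ _ := by gcongr

end flat

end Vale.Agent.Lib.P110
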