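import Vale.Agent.Lib.P110.Rig1

namespace Vale.Agent.Lib.P110

open Complex Finset Metric

/-- holomorphic logarithm on a ball -/
lemma exists_log_on_ball {f : ℂ → ℂ} {ρ : ℝ} (hf : Differentiable ℂ f)
    (hne : ∀ w ∈ ball (0 : ℂ) ρ, f w ≠ 0) (h0 : f 0 = 1) (hρ : 0 < ρ) :
    ∃ L : ℂ → ℂ, L 0 = 0 ∧ (∀ w ∈ ball (0 : ℂ) ρ, HasDerivAt L (deriv f w / f w) w) ∧
      ∀ w ∈ ball (0 : ℂ) ρ, cexp (L w) = f w := by
  have hd : DifferentiableOn ℂ (fun w => deriv f w / f w) (ball 0 ρ) :=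
    (hf.differentiableOn.deriv isOpen_ball).div hf.differentiableOn hne
  obtain ⟨L, hL0, hL⟩ := hd.isExactOn_ball.with_val_at 0 0
  refine ⟨L, hL0, hL, ?_⟩
  have hφ : ∀ w ∈ ball (0 : ℂ) ρ, HasDerivAt (fun w => f w * cexp (-L w)) 0 w := by
    intro w hw
    have h1 := (hf w).hasDerivAt
    have h2 := ((hL w hw).fun_neg).cexp
    have h3 := h1.fun_mul h2
    have h0' := hne w hw
    have h4 : deriv f w * cexp (-L w) + f w * (cexp (-L w) * -(deriv f w / f w)) = 0 := by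
      field_simp
      ring
    rw [h4] at h3
    exact h3
  have hmem0 : (0 : ℂ) ∈ ball (0 : ℂ) ρ := mem_ball_self hρ
  intro w hw
  have hconst : f w * cexp (-L w) = f 0 * cexp (-L 0) := by
    refine isOpen_ball.is_const_of_deriv_eq_zero (convex_ball (0 : ℂ) ρ).isPreconnected
      (fun x hx => (hφ x hx).differentiableAt.differentiableWithinAt) (fun x hx => ?_) hw hmem0
    exact (hφ x hx).deriv
  rw [h0, hL0] at hconst
  simp only [neg_zero, Complex.exp_zero, mul_one] at hconst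
  rw [Complex.exp_neg] at hconst
  have hexp := Complex.exp_ne_zero (L w)
  field_simp at hconst
  exact hconst.symm

/-- second order Taylor bound from a bound on a ball. -/
lemma quad_bound {L : ℂ → ℂ} {ρ Mx : ℝ} (hρ : 0 < ρ) (hMx : 0 ≤ Mx)
    (hL : DifferentiableOn ℂ L (ball 0 ρ))
    (hbound : ∀ v ∈ closedBall (0 : ℂ) (ρ / 2), ‖L v‖ ≤ 2 * Mx) (h0 : L 0 = 0)
    {w : ℂ} (hw : ‖w‖ ≤ ρ / 4) : ‖L w - deriv L 0 * w‖ ≤ (64 * Mx / ρ ^ 2) * ‖w‖ ^ 2 := by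
  set C := 64 * Mx / ρ ^ 2 with hC
  have hCnn : 0 ≤ C := by positivity
  have hρ4 : 0 < ρ / 4 := by positivity
  have hd2 : ∀ v ∈ closedBall (0 : ℂ) (ρ / 4), ‖deriv (deriv L) v‖ ≤ C := by
    intro v hv
    have hvn : ‖v‖ ≤ ρ / 4 := by simpa using hv
    have hsub : closedBall v (ρ / 4) ⊆ ball (0 : ℂ) ρ := by
      intro x hx
      have hx' : dist x v ≤ ρ / 4 := hx
      have : ‖x‖ ≤ ‖x - v‖ + ‖v‖ := by
        have := norm_add_le (x - v) v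
        simpa using this
      rw [dist_eq_norm] at hx'
      simp only [mem_ball, dist_zero_right]
      linarith
    have hcont : DiffContOnCl ℂ L (ball v (ρ / 4)) := by
      apply DifferentiableOn.diffContOnCl
      rw [closure_ball v hρ4.ne']
      exact hL.mono hsub
    have hsph : ∀ z ∈ sphere v (ρ / 4), ‖L z‖ ≤ 2 * Mx := by
      intro z hz
      apply hbound
      have hz' : ‖z - v‖ = ρ / 4 := by simpa [dist_eq_norm] using hz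
      have : ‖z‖ ≤ ‖z - v‖ + ‖v‖ := by
        have := norm_add_le (z - v) v
        simpa using this
      simp only [mem_closedBall, dist_zero_right]
      linarith
    have := Complex.norm_iteratedDeriv_le_of_forall_mem_sphere_norm_le 2 hρ4 hcont hsph
    have h2 : iteratedDeriv 2 L v = deriv (deriv L) v := by
      rw [iteratedDeriv_succ, iteratedDeriv_one]
    rw [h2] at this
    have h3 : ((2 : ℕ).factorial : ℝ) * (2 * Mx) / (ρ / 4) ^ 2 = C := by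
      rw [hC]
      norm_num [Nat.factorial]
      field_simp
      ring
    rwa [h3] at this
  have hsub4 : closedBall (0 : ℂ) (ρ / 4) ⊆ ball (0 : ℂ) ρ := by
    intro x hx
    have hx' : ‖x‖ ≤ ρ / 4 := by simpa using hx
    simp only [mem_ball, dist_zero_right]
    linarith
  have hdL : DifferentiableOn ℂ (deriv L) (ball 0 ρ) := hL.deriv isOpen_ball
  have hdiffAt : ∀ x ∈ closedBall (0 : ℂ) (ρ / 4), DifferentiableAt ℂ (deriv L) x :=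
    fun x hx => hdL.differentiableAt (isOpen_ball.mem_nhds (hsub4 hx))
  have hLat : ∀ x ∈ closedBall (0 : ℂ) (ρ / 4), DifferentiableAt ℂ L x :=
    fun x hx => hL.differentiableAt (isOpen_ball.mem_nhds (hsub4 hx))
  have hmvt : ∀ v ∈ closedBall (0 : ℂ) (ρ / 4), ‖deriv L v - deriv L 0‖ ≤ C * ‖v‖ := by
    intro v hv
    have := (convex_closedBall (0 : ℂ) (ρ / 4)).norm_image_sub_le_of_norm_deriv_le hdiffAt hd2
      (mem_closedBall_self hρ4.le) hv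
    simpa using this
  set E : ℂ → ℂ := fun v => L v - deriv L 0 * v with hE
  have hEd : ∀ v ∈ closedBall (0 : ℂ) ‖w‖, HasDerivAt E (deriv L v - deriv L 0) v := by
    intro v hv
    have hv' : v ∈ closedBall (0 : ℂ) (ρ / 4) := closedBall_subset_closedBall hw hv
    have h1 := (hLat v hv').hasDerivAt
    have h2 : HasDerivAt (fun v => deriv L 0 * v) (deriv L 0) v := by
      simpa using (hasDerivAt_id v).const_mul (deriv L 0)
    exact h1.sub h2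
  have hmain := (convex_closedBall (0 : ℂ) ‖w‖).norm_image_sub_le_of_norm_deriv_le (f := E)
    (C := C * ‖w‖)
    (fun x hx => (hEd x hx).differentiableAt)
    (fun x hx => by
      rw [(hEd x hx).deriv]
      have hx' : ‖x‖ ≤ ‖w‖ := by simpa using hx
      have h1 := hmvt x (closedBall_subset_closedBall hw hx)
      calc _ ≤ C * ‖x‖ := h1
          _ ≤ C * ‖w‖ := by gcongr)
    (mem_closedBall_self (norm_nonneg w))
    (by simp : w ∈ closedBall (0 : ℂ) ‖w‖)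
  have hE0 : E 0 = 0 := by simp [hE, h0]
  rw [hE0, sub_zero, sub_zero] at hmain
  calc ‖L w - deriv L 0 * w‖ = ‖E w‖ := rfl
    _ ≤ C * ‖w‖ * ‖w‖ := hmain
    _ = C * ‖w‖ ^ 2 := by ring

noncomputable def entD (a : ℕ → ℤ) (N : ℕ) (ζ : ℂ) : ℂ :=
  ∑ k ∈ range N, (k : ℂ) * (a k : ℂ) * cexp (I * (k : ℂ) * ζ)

lemma hasDerivAt_entA (a : ℕ → ℤ) (N : ℕ) (ζ : ℂ) :
    HasDerivAt (entA a N) (I * entD a N ζ) ζ := by
  unfold entA entD
  rw [Finset.mul_sum]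
  have : ∀ k ∈ range N, HasDerivAt (fun ζ => (a k : ℂ) * cexp (I * (k : ℂ) * ζ))
      (I * ((k : ℂ) * (a k : ℂ) * cexp (I * (k : ℂ) * ζ))) ζ := by
    intro k _
    have h1 : HasDerivAt (fun ζ => I * (k : ℂ) * ζ) (I * (k : ℂ)) ζ := by
      simpa using (hasDerivAt_id ζ).const_mul (I * (k : ℂ))
    have h2 := (h1.cexp).const_mul (a k : ℂ)
    have h3 : (a k : ℂ) * (cexp (I * (k : ℂ) * ζ) * (I * (k : ℂ))) =
        I * ((k : ℂ) * (a k : ℂ) * cexp (I * (k : ℂ) * ζ)) := by ring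
    rw [h3] at h2
    exact h2
  exact HasDerivAt.fun_sum this

section twist

variable {a : ℕ → ℤ} {N : ℕ} {ε : ℝ}

/-- the normalized centered function near `θ₀`. -/
noncomputable def ftw (a : ℕ → ℤ) (N : ℕ) (θ₀ : ℝ) (w : ℂ) : ℂ :=
  entA a N ((θ₀ : ℂ) + w) * cexp (-(I * ((N - 1 : ℕ) : ℂ) / 2 * w)) / polyAt a N θ₀

lemma differentiable_ftw (a : ℕ → ℤ) (N : ℕ) (θ₀ : ℝ) : Differentiable ℂ (ftw a N θ₀) := by
  unfold ftw
  have h := differentiable_entA a N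
  fun_prop

lemma norm_sq_polyAt_ge (h : IsFlat ε a N) (θ : ℝ) : (1 - ε) * N ≤ ‖polyAt a N θ‖ ^ 2 := by
  have := (abs_le.mp (h θ)).1
  nlinarith

lemma norm_sq_polyAt_le (h : IsFlat ε a N) (θ : ℝ) : ‖polyAt a N θ‖ ^ 2 ≤ (1 + ε) * N := by
  have := (abs_le.mp (h θ)).2
  nlinarith

lemma polyAt_ne_zero (h : IsFlat ε a N) (hε : ε < 1) (hN : 1 ≤ N) (θ : ℝ) : polyAt a N θ ≠ 0 := by
  intro h0
  have h1 := norm_sq_polyAt_ge h θ
  rw [h0] at h1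
  simp only [norm_zero, ne_eq, OfNat.ofNat_ne_zero, not_false_eq_true, zero_pow] at h1
  have hN' : (1 : ℝ) ≤ N := by exact_mod_cast hN
  nlinarith

lemma entA_ne_zero (h : IsFlat ε a N) {Y : ℝ} (hεY : ε ≤ Real.exp (-Y) / 2) (hN : 1 ≤ N)
    {ζ : ℂ} (hζ : ((N - 1 : ℕ) : ℝ) * |ζ.im| ≤ Y) : entA a N ζ ≠ 0 := by
  intro h0
  have h1 := norm_prod_sub_le h ζ
  rw [h0, zero_mul, zero_sub, norm_neg] at h1
  have hN' : (1 : ℝ) ≤ N := by exact_mod_cast hN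
  simp only [Complex.norm_natCast] at h1
  have h2 : Real.exp (((N - 1 : ℕ) : ℝ) * |ζ.im|) ≤ Real.exp Y := Real.exp_le_exp.mpr hζ
  have h3 : ε * Real.exp (((N - 1 : ℕ) : ℝ) * |ζ.im|) ≤ 1 / 2 := by
    have h4 : Real.exp (-Y) * Real.exp Y = 1 := by
      rw [← Real.exp_add]; simp
    have h5 : 0 < Real.exp Y := Real.exp_pos _
    have h6 : 0 < Real.exp (((N - 1 : ℕ) : ℝ) * |ζ.im|) := Real.exp_pos _
    calc ε * Real.exp (((N - 1 : ℕ) : ℝ) * |ζ.im|)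
        ≤ (Real.exp (-Y) / 2) * Real.exp (((N - 1 : ℕ) : ℝ) * |ζ.im|) := by gcongr
      _ ≤ (Real.exp (-Y) / 2) * Real.exp Y := by gcongr
      _ = 1 / 2 := by rw [div_mul_eq_mul_div, h4]
  nlinarith

lemma norm_twist (N : ℕ) (w : ℂ) :
    ‖cexp (-(I * ((N - 1 : ℕ) : ℂ) / 2 * w))‖ = Real.exp (((N - 1 : ℕ) : ℝ) / 2 * w.im) := by
  rw [Complex.norm_exp]
  congr 1
  have : -(I * ((N - 1 : ℕ) : ℂ) / 2 * w) = -(I * (((((N - 1 : ℕ) : ℝ) / 2 : ℝ) : ℂ) * w)) := by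
    push_cast
    ring
  rw [this]
  simp [Complex.mul_re, Complex.mul_im]

lemma norm_entA_twist_le (h : IsFlat ε a N) (hε : 0 ≤ ε) (θ₀ : ℝ) (w : ℂ) :
    ‖entA a N ((θ₀ : ℂ) + w)‖ * Real.exp (((N - 1 : ℕ) : ℝ) / 2 * w.im)
      ≤ Real.sqrt ((1 + ε) * N) * Real.exp (((N - 1 : ℕ) : ℝ) / 2 * |w.im|) := by
  have him : ((θ₀ : ℂ) + w).im = w.im := by simp
  have hn : (0 : ℝ) ≤ ((N - 1 : ℕ) : ℝ) := Nat.cast_nonneg _
  rcases le_total 0 w.im with h0 | h0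
  · have h1 := norm_entA_le_of_nonneg h hε (ζ := (θ₀ : ℂ) + w) (by rw [him]; exact h0)
    rw [abs_of_nonneg h0]
    gcongr
  · have h1 := norm_entA_le_of_nonpos h hε (ζ := (θ₀ : ℂ) + w) (by rw [him]; exact h0)
    rw [him] at h1
    rw [abs_of_nonpos h0]
    calc ‖entA a N ((θ₀ : ℂ) + w)‖ * Real.exp (((N - 1 : ℕ) : ℝ) / 2 * w.im)
        ≤ (Real.sqrt ((1 + ε) * N) * Real.exp (((N - 1 : ℕ) : ℝ) * (-w.im))) *
            Real.exp (((N - 1 : ℕ) : ℝ) / 2 * w.im) := by gcongr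
      _ = Real.sqrt ((1 + ε) * N) * Real.exp (((N - 1 : ℕ) : ℝ) / 2 * -w.im) := by
        rw [mul_assoc, ← Real.exp_add]
        congr 2
        ring

lemma norm_sq_ftw_le (h : IsFlat ε a N) (hε : 0 ≤ ε) (hε2 : ε ≤ 1 / 4) (hN : 1 ≤ N) (θ₀ : ℝ)
    (w : ℂ) : ‖ftw a N θ₀ w‖ ^ 2 ≤ (1 + 4 * ε) * Real.exp (((N - 1 : ℕ) : ℝ) * |w.im|) := by
  have hN' : (1 : ℝ) ≤ N := by exact_mod_cast hN
  unfold ftw
  rw [norm_div, norm_mul, norm_twist, div_pow]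
  have h1 := norm_entA_twist_le h hε θ₀ w
  have h2 := norm_sq_polyAt_ge h θ₀
  have hpos : 0 < ‖polyAt a N θ₀‖ ^ 2 := by
    have : 0 < (1 - ε) * N := by nlinarith
    linarith
  rw [div_le_iff₀ hpos]
  have h3 : (‖entA a N ((θ₀ : ℂ) + w)‖ * Real.exp (((N - 1 : ℕ) : ℝ) / 2 * w.im)) ^ 2 ≤
      (Real.sqrt ((1 + ε) * N) * Real.exp (((N - 1 : ℕ) : ℝ) / 2 * |w.im|)) ^ 2 := by
    gcongr
  have h4 : (Real.sqrt ((1 + ε) * N) * Real.exp (((N - 1 : ℕ) : ℝ) / 2 * |w.im|)) ^ 2 =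
      (1 + ε) * N * Real.exp (((N - 1 : ℕ) : ℝ) * |w.im|) := by
    rw [mul_pow, Real.sq_sqrt (by positivity), ← Real.exp_nat_mul]
    congr 2
    push_cast
    ring
  rw [h4] at h3
  have hE : 0 < Real.exp (((N - 1 : ℕ) : ℝ) * |w.im|) := Real.exp_pos _
  have h5 : (1 + ε) * N ≤ (1 + 4 * ε) * ‖polyAt a N θ₀‖ ^ 2 := by
    have : (1 + ε) * N ≤ (1 + 4 * ε) * ((1 - ε) * N) := by
      have h00 : (1 + ε) ≤ (1 + 4 * ε) * (1 - ε) := by nlinarith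
      have h01 : (0 : ℝ) ≤ N := Nat.cast_nonneg _
      nlinarith
    calc (1 + ε) * N ≤ (1 + 4 * ε) * ((1 - ε) * N) := this
      _ ≤ _ := by gcongr
  calc _ ≤ (1 + ε) * N * Real.exp (((N - 1 : ℕ) : ℝ) * |w.im|) := h3
    _ ≤ ((1 + 4 * ε) * ‖polyAt a N θ₀‖ ^ 2) * Real.exp (((N - 1 : ℕ) : ℝ) * |w.im|) := by gcongr
    _ = _ := by ring

/-- consequence of `exp L = f`. -/
lemma re_le_of_exp_eq {L : ℂ → ℂ} (h : IsFlat ε a N) (hε : 0 ≤ ε) (hε2 : ε ≤ 1 / 4) (hN : 1 ≤ N)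
    (θ₀ : ℝ) {w : ℂ} (hw : cexp (L w) = ftw a N θ₀ w) :
    (L w).re ≤ 2 * ε + ((N - 1 : ℕ) : ℝ) * |w.im| / 2 := by
  have h1 := norm_sq_ftw_le h hε hε2 hN θ₀ w
  rw [← hw, Complex.norm_exp, ← Real.exp_nat_mul] at h1
  have h2 : 1 + 4 * ε ≤ Real.exp (4 * ε) := by
    have := Real.add_one_le_exp (4 * ε)
    linarith
  have h3 : Real.exp (((2 : ℕ) : ℝ) * (L w).re) ≤
      Real.exp (4 * ε + ((N - 1 : ℕ) : ℝ) * |w.im|) := by
    rw [Real.exp_add]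
    calc _ ≤ _ := h1
      _ ≤ _ := by gcongr
  have h4 := Real.exp_le_exp.mp h3
  push_cast at h4
  linarith

lemma ftw_ofReal_norm (a : ℕ → ℤ) (N : ℕ) (θ₀ s : ℝ) :
    ‖ftw a N θ₀ (s : ℂ)‖ = ‖polyAt a N (θ₀ + s)‖ / ‖polyAt a N θ₀‖ := by
  unfold ftw
  rw [norm_div, norm_mul, norm_twist]
  simp only [Complex.ofReal_im, mul_zero, Real.exp_zero, mul_one]
  congr 2
  rw [← entA_ofReal]
  push_cast
  rfl

lemma re_ge_of_exp_eq_real {L : ℂ → ℂ} (h : IsFlat ε a N) (hε : 0 ≤ ε) (hε2 : ε ≤ 1 / 4)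
    (hN : 1 ≤ N) (θ₀ s : ℝ) (hw : cexp (L (s : ℂ)) = ftw a N θ₀ (s : ℂ)) :
    -(2 * ε) ≤ (L (s : ℂ)).re := by
  have hN' : (1 : ℝ) ≤ N := by exact_mod_cast hN
  have h1 := ftw_ofReal_norm a N θ₀ s
  rw [← hw, Complex.norm_exp] at h1
  have h2 := norm_sq_polyAt_ge h (θ₀ + s)
  have h3 := norm_sq_polyAt_le h θ₀
  have h4 : 0 < ‖polyAt a N (θ₀ + s)‖ ^ 2 := by
    have : 0 < (1 - ε) * N := by nlinarith
    linarith
  have hpos : 0 < ‖polyAt a N (θ₀ + s)‖ := by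
    by_contra hc
    have : ‖polyAt a N (θ₀ + s)‖ = 0 := le_antisymm (not_lt.mp hc) (norm_nonneg _)
    rw [this] at h4
    norm_num at h4
  have hpos0 : 0 < ‖polyAt a N θ₀‖ := by
    have h5 := norm_sq_polyAt_ge h θ₀
    have h6 : 0 < ‖polyAt a N θ₀‖ ^ 2 := by
      have : 0 < (1 - ε) * N := by nlinarith
      linarith
    by_contra hc
    have : ‖polyAt a N θ₀‖ = 0 := le_antisymm (not_lt.mp hc) (norm_nonneg _)
    rw [this] at h6
    norm_num at h6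
  have h7 : Real.exp (-(((2 : ℕ) : ℝ) * (L (s : ℂ)).re)) =
      ‖polyAt a N θ₀‖ ^ 2 / ‖polyAt a N (θ₀ + s)‖ ^ 2 := by
    rw [← div_pow, ← inv_div, ← h1, Real.exp_neg, Real.exp_nat_mul, inv_pow]
  have h8 : ‖polyAt a N θ₀‖ ^ 2 / ‖polyAt a N (θ₀ + s)‖ ^ 2 ≤ 1 + 4 * ε := by
    rw [div_le_iff₀ h4]
    have : (1 + ε) * N ≤ (1 + 4 * ε) * ((1 - ε) * N) := by
      have h00 : (1 + ε) ≤ (1 + 4 * ε) * (1 - ε) := by nlinarith
      have h01 : (0 : ℝ) ≤ N := Nat.cast_nonneg _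
      nlinarith
    calc _ ≤ (1 + ε) * (N : ℝ) := h3
      _ ≤ (1 + 4 * ε) * ((1 - ε) * N) := this
      _ ≤ _ := by gcongr
  have h9 : 1 + 4 * ε ≤ Real.exp (4 * ε) := by
    have := Real.add_one_le_exp (4 * ε)
    linarith
  have h10 : Real.exp (-(((2 : ℕ) : ℝ) * (L (s : ℂ)).re)) ≤ Real.exp (4 * ε) := by
    rw [h7]; linarith
  have h11 := Real.exp_le_exp.mp h10
  push_cast at h11
  linarith

lemma hasDerivAt_ftw_zero (a : ℕ → ℤ) (N : ℕ) (θ₀ : ℝ) (hA : polyAt a N θ₀ ≠ 0) :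
    deriv (ftw a N θ₀) 0 =
      I * (zDerivAt a N θ₀ / polyAt a N θ₀ - ((N - 1 : ℕ) : ℂ) / 2) := by
  have h1 : HasDerivAt (fun w : ℂ => (θ₀ : ℂ) + w) 1 0 := by
    simpa using (hasDerivAt_id (0 : ℂ)).const_add (θ₀ : ℂ)
  have h2 : HasDerivAt (fun w : ℂ => entA a N ((θ₀ : ℂ) + w)) (I * zDerivAt a N θ₀) 0 := by
    have h3 := hasDerivAt_entA a N (((θ₀ : ℂ) + (0 : ℂ)))
    have h4 := HasDerivAt.comp (0 : ℂ) h3 h1
    have h5 : entD a N ((θ₀ : ℂ) + 0) = zDerivAt a N θ₀ := by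
      simp [entD, zDerivAt]
    rw [h5, mul_one] at h4
    exact h4
  have h3 : HasDerivAt (fun w : ℂ => cexp (-(I * ((N - 1 : ℕ) : ℂ) / 2 * w)))
      (cexp (-(I * ((N - 1 : ℕ) : ℂ) / 2 * 0)) * (-(I * ((N - 1 : ℕ) : ℂ) / 2))) 0 := by
    have h4 : HasDerivAt (fun w : ℂ => -(I * ((N - 1 : ℕ) : ℂ) / 2 * w))
        (-(I * ((N - 1 : ℕ) : ℂ) / 2)) 0 := by
      simpa using ((hasDerivAt_id (0 : ℂ)).const_mul (I * ((N - 1 : ℕ) : ℂ) / 2)).fun_neg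
    exact h4.cexp
  have h5 := (h2.fun_mul h3).div_const (polyAt a N θ₀)
  have hfun : (ftw a N θ₀) = fun w => entA a N ((θ₀ : ℂ) + w) *
      cexp (-(I * ((N - 1 : ℕ) : ℂ) / 2 * w)) / polyAt a N θ₀ := rfl
  rw [hfun]
  rw [h5.deriv]
  have h6 : entA a N ((θ₀ : ℂ) + 0) = polyAt a N θ₀ := by
    rw [add_zero, entA_ofReal]
  simp only [mul_zero, neg_zero, Complex.exp_zero, mul_one, one_mul]
  rw [h6]
  field_simp
  ring

end twist

end Vale.Agent.Lib.P110
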