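import Vale.Agent.Lib.P110.Rig2

namespace Vale.Agent.Lib.P110

open Complex Finset Metric

section

variable {a : ℕ → ℤ} {N : ℕ} {ε : ℝ}

lemma ftw_zero (a : ℕ → ℤ) (N : ℕ) (θ₀ : ℝ) (hA : polyAt a N θ₀ ≠ 0) : ftw a N θ₀ 0 = 1 := by
  unfold ftw
  rw [add_zero, entA_ofReal]
  simp only [mul_zero, neg_zero, Complex.exp_zero, mul_one]
  exact div_self hA

lemma im_bound {Y : ℝ} (hN : 1 ≤ N) {w : ℂ} (hw : w ∈ ball (0 : ℂ) (Y / N)) :
    ((N - 1 : ℕ) : ℝ) * |w.im| ≤ Y := by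
  have hN' : (0 : ℝ) < N := by exact_mod_cast hN
  have hw' : ‖w‖ < Y / N := by simpa using hw
  have h1 : |w.im| ≤ ‖w‖ := Complex.abs_im_le_norm w
  have h2 : ((N - 1 : ℕ) : ℝ) ≤ N := by
    exact_mod_cast Nat.sub_le N 1
  have h3 : (N : ℝ) * ‖w‖ ≤ Y := by
    rw [lt_div_iff₀ hN'] at hw'
    linarith
  calc ((N - 1 : ℕ) : ℝ) * |w.im| ≤ N * ‖w‖ := by gcongr
    _ ≤ Y := h3

lemma exists_log_data (h : IsFlat ε a N) (hε : 0 ≤ ε) (hε2 : ε ≤ 1 / 4) (hN : 1 ≤ N) {Y : ℝ}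
    (hY : 1 ≤ Y) (hεY : ε ≤ Real.exp (-Y) / 2) (θ₀ : ℝ) :
    ∃ L : ℂ → ℂ, L 0 = 0 ∧ (∀ w ∈ ball (0 : ℂ) (Y / N), cexp (L w) = ftw a N θ₀ w) ∧
      deriv L 0 = I * (zDerivAt a N θ₀ / polyAt a N θ₀ - ((N - 1 : ℕ) : ℂ) / 2) ∧
      ∀ w : ℂ, ‖w‖ ≤ Y / N / 4 → ‖L w - deriv L 0 * w‖ ≤ (64 * N ^ 2 / Y) * ‖w‖ ^ 2 := by
  have hN' : (0 : ℝ) < N := by exact_mod_cast hN
  have hYpos : 0 < Y := by linarith
  have hρ : 0 < Y / N := by positivity
  have hA : polyAt a N θ₀ ≠ 0 := polyAt_ne_zero h (by linarith) hN θ₀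
  have hne : ∀ w ∈ ball (0 : ℂ) (Y / N), ftw a N θ₀ w ≠ 0 := by
    intro w hw
    unfold ftw
    refine div_ne_zero (mul_ne_zero ?_ (Complex.exp_ne_zero _)) hA
    apply entA_ne_zero h hεY hN
    simpa using im_bound hN hw
  obtain ⟨L, hL0, hLd, hLe⟩ := exists_log_on_ball (differentiable_ftw a N θ₀) hne
    (ftw_zero a N θ₀ hA) hρ
  refine ⟨L, hL0, hLe, ?_, ?_⟩
  · have h1 := (hLd 0 (mem_ball_self hρ)).deriv
    rw [h1, ftw_zero a N θ₀ hA, div_one, hasDerivAt_ftw_zero a N θ₀ hA]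
  · intro w hw
    have hdiff : DifferentiableOn ℂ L (ball 0 (Y / N)) := fun x hx =>
      (hLd x hx).differentiableAt.differentiableWithinAt
    have hre : Set.MapsTo L (ball 0 (Y / N)) {z | z.re ≤ Y} := by
      intro x hx
      have h1 := re_le_of_exp_eq h hε hε2 hN θ₀ (hLe x hx)
      have h2 := im_bound hN hx
      simp only [Set.mem_ofPred_eq]
      linarith
    have hb : ∀ v ∈ closedBall (0 : ℂ) (Y / N / 2), ‖L v‖ ≤ 2 * Y := by
      intro v hv
      have hv' : ‖v‖ ≤ Y / N / 2 := by simpa using hv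
      have hvb : v ∈ ball (0 : ℂ) (Y / N) := by
        simp only [mem_ball, dist_zero_right]
        have : 0 < Y / N / 2 := by positivity
        linarith
      have h1 := Complex.borelCaratheodory_zero hYpos hdiff hre hρ hvb hL0
      have h2 : 2 * Y * ‖v‖ / (Y / N - ‖v‖) ≤ 2 * Y := by
        have h3 : 0 < Y / N - ‖v‖ := by
          have : 0 < Y / N / 2 := by positivity
          linarith
        rw [div_le_iff₀ h3]
        have h4 : ‖v‖ ≤ Y / N - ‖v‖ := by linarith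
        exact mul_le_mul_of_nonneg_left h4 (by positivity)
      linarith
    have h1 := quad_bound hρ hYpos.le hdiff hb hL0 hw
    have h2 : 64 * Y / (Y / N) ^ 2 = 64 * N ^ 2 / Y := by
      field_simp
    rwa [h2] at h1

/-- Bounds on the logarithmic derivative and on the phase derivative. -/
lemma rigidity_aux (h : IsFlat ε a N) (hε : 0 ≤ ε) (hε2 : ε ≤ 1 / 4) (hN : 1 ≤ N) {Y : ℝ}
    (hY : 4 ≤ Y) (hεY : ε ≤ Real.exp (-Y) / 2) (θ₀ : ℝ) :
    -(2 * ε + 64 / Y) ≤ phaseDeriv a N θ₀ / N ∧ phaseDeriv a N θ₀ / N ≤ 1 + 2 * ε + 64 / Y ∧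
    |(zDerivAt a N θ₀ / polyAt a N θ₀).im / N| ≤ 2 * ε + 64 / Y ∧
    ∀ t : ℝ, |t| ≤ Y / 4 → ∃ E : ℂ, ‖E‖ ≤ 64 * t ^ 2 / Y ∧
      polyAt a N (θ₀ + t / N) = polyAt a N θ₀ *
        cexp (I * ((phaseDeriv a N θ₀ / N : ℝ) : ℂ) * (t : ℂ)) *
        cexp (-(((zDerivAt a N θ₀ / polyAt a N θ₀).im / N * t : ℝ) : ℂ) + E) := by
  have hN' : (0 : ℝ) < N := by exact_mod_cast hN
  have hYpos : 0 < Y := by linarith
  have hA : polyAt a N θ₀ ≠ 0 := polyAt_ne_zero h (by linarith) hN θ₀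
  obtain ⟨L, hL0, hLe, hLd, hq⟩ := exists_log_data h hε hε2 hN (by linarith : 1 ≤ Y) hεY θ₀
  set W : ℂ := zDerivAt a N θ₀ / polyAt a N θ₀ with hW
  set n : ℝ := ((N - 1 : ℕ) : ℝ) with hn
  have hnle : n ≤ N := by
    rw [hn]; exact_mod_cast Nat.sub_le N 1
  have hn0 : 0 ≤ n := Nat.cast_nonneg _
  have hp : phaseDeriv a N θ₀ = W.re := rfl
  rw [hp]
  -- the quadratic bound on specific points
  have hρ4 : ∀ w : ℂ, ‖w‖ ≤ 1 / N → ‖w‖ ≤ Y / N / 4 := by
    intro w hw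
    have : 1 / (N : ℝ) ≤ Y / N / 4 := by
      rw [div_div, le_div_iff₀ (by positivity), div_mul_eq_mul_div, one_mul,
        div_le_iff₀ (by positivity)]
      nlinarith
    linarith
  have hball : ∀ w : ℂ, ‖w‖ ≤ 1 / N → w ∈ ball (0 : ℂ) (Y / N) := by
    intro w hw
    have h1 := hρ4 w hw
    have : 0 < Y / N := by positivity
    simp only [mem_ball, dist_zero_right]
    linarith
  have hq1 : ∀ w : ℂ, ‖w‖ = 1 / N → ‖L w - deriv L 0 * w‖ ≤ 64 / Y := by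
    intro w hw
    have h1 := hq w (hρ4 w hw.le)
    rw [hw] at h1
    have h2 : 64 * (N : ℝ) ^ 2 / Y * (1 / N) ^ 2 = 64 / Y := by
      field_simp
    rwa [h2] at h1
  -- re of `L` at `i y`
  have hIm : ∀ y : ℝ, |y| = 1 / N →
      -y * (W.re - n / 2) - 64 / Y ≤ 2 * ε + n / N / 2 := by
    intro y hy
    set w : ℂ := (y : ℂ) * I with hwdef
    have hwn : ‖w‖ = 1 / N := by
      rw [hwdef, norm_mul, Complex.norm_I, mul_one, Complex.norm_real, Real.norm_eq_abs, hy]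
    have h1 := hq1 w hwn
    have h2 := re_le_of_exp_eq h hε hε2 hN θ₀ (hLe w (hball w hwn.le))
    have him : w.im = y := by simp [hwdef]
    rw [him, hy] at h2
    have h3 : (L w - deriv L 0 * w).re ≤ 64 / Y := le_trans (Complex.re_le_norm _) h1
    have h4 : -(L w - deriv L 0 * w).re ≤ 64 / Y := by
      have := Complex.abs_re_le_norm (L w - deriv L 0 * w)
      have := neg_abs_le (L w - deriv L 0 * w).re
      linarith
    have h5 : (deriv L 0 * w).re = -y * (W.re - n / 2) := by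
      rw [hLd, hwdef]
      have : I * (W - ((N - 1 : ℕ) : ℂ) / 2) * ((y : ℂ) * I) =
          -((y : ℂ) * (W - ((n / 2 : ℝ) : ℂ))) := by
        have h6 : ((n / 2 : ℝ) : ℂ) = ((N - 1 : ℕ) : ℂ) / 2 := by
          rw [hn]; push_cast; ring
        rw [h6]
        linear_combination ((y : ℂ) * (W - ((N - 1 : ℕ) : ℂ) / 2)) * Complex.I_sq
      rw [this]
      simp [Complex.mul_re]
    have h6 : (L w - deriv L 0 * w).re = (L w).re - (deriv L 0 * w).re := Complex.sub_re _ _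
    have h7 : n * (1 / (N : ℝ)) / 2 = n / N / 2 := by ring
    rw [h7] at h2
    linarith
  -- re of `L` at real points
  have hRe : ∀ s : ℝ, |s| = 1 / N → |(-W.im) * s| ≤ 2 * ε + 64 / Y := by
    intro s hs
    have hwn : ‖(s : ℂ)‖ = 1 / N := by
      rw [Complex.norm_real, Real.norm_eq_abs, hs]
    have h1 := hq1 (s : ℂ) hwn
    have h2 := re_le_of_exp_eq h hε hε2 hN θ₀ (hLe (s : ℂ) (hball _ hwn.le))
    have h2' := re_ge_of_exp_eq_real h hε hε2 hN θ₀ s (hLe (s : ℂ) (hball _ hwn.le))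
    simp only [Complex.ofReal_im, abs_zero, mul_zero, zero_div, add_zero] at h2
    have h3 := Complex.abs_re_le_norm (L (s : ℂ) - deriv L 0 * (s : ℂ))
    have h5 : (deriv L 0 * (s : ℂ)).re = (-W.im) * s := by
      rw [hLd]
      have : I * (W - ((N - 1 : ℕ) : ℂ) / 2) * (s : ℂ) =
          I * W * (s : ℂ) - I * (((n / 2 * s : ℝ)) : ℂ) := by
        have h6 : ((n / 2 * s : ℝ) : ℂ) = ((N - 1 : ℕ) : ℂ) / 2 * (s : ℂ) := by
          rw [hn]; push_cast; ring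
        rw [h6]
        ring
      rw [this]
      simp [Complex.mul_re, Complex.sub_re]
    rw [Complex.sub_re, h5] at h3
    have h6 := abs_le.mp (le_trans h3 h1)
    rw [abs_le]
    constructor <;> linarith [h6.1, h6.2]
  have hNinv : (1 : ℝ) / N > 0 := by positivity
  refine ⟨?_, ?_, ?_, ?_⟩
  · have h1 := hIm (1 / N) (abs_of_pos hNinv)
    have h2 : -(1 / (N : ℝ)) * (W.re - n / 2) = -(W.re / N) + n / N / 2 := by
      field_simp
      ring
    rw [h2] at h1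
    linarith
  · have h1 := hIm (-(1 / N)) (by rw [abs_neg, abs_of_pos hNinv])
    have h2 : - -(1 / (N : ℝ)) * (W.re - n / 2) = W.re / N - n / N / 2 := by
      field_simp
    rw [h2] at h1
    have h3 : n / N ≤ 1 := by
      rw [div_le_one hN']; exact hnle
    linarith
  · have h1 := hRe (1 / N) (abs_of_pos hNinv)
    have h2 : (-W.im) * (1 / (N : ℝ)) = -(W.im / N) := by ring
    rw [h2, abs_neg] at h1
    exact h1
  · intro t ht
    set s : ℝ := t / N with hs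
    set E : ℂ := L (s : ℂ) - deriv L 0 * (s : ℂ) with hE
    have hsn : ‖(s : ℂ)‖ = |t| / N := by
      rw [Complex.norm_real, Real.norm_eq_abs, hs, abs_div, abs_of_pos hN']
    have hsb : ‖(s : ℂ)‖ ≤ Y / N / 4 := by
      rw [hsn, div_right_comm]
      gcongr
    have hE1 : ‖E‖ ≤ 64 * t ^ 2 / Y := by
      have h1 := hq (s : ℂ) hsb
      rw [hsn] at h1
      have h2 : 64 * (N : ℝ) ^ 2 / Y * (|t| / N) ^ 2 = 64 * t ^ 2 / Y := by
        rw [div_pow, sq_abs]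
        field_simp
      rwa [h2] at h1
    refine ⟨E, hE1, ?_⟩
    have hmem : (s : ℂ) ∈ ball (0 : ℂ) (Y / N) := by
      have : 0 < Y / N := by positivity
      simp only [mem_ball, dist_zero_right]
      linarith
    have hexp := hLe (s : ℂ) hmem
    have h1 : entA a N ((θ₀ : ℂ) + (s : ℂ)) = polyAt a N (θ₀ + s) := by
      rw [← entA_ofReal]; push_cast; rfl
    unfold ftw at hexp
    rw [h1] at hexp
    have h2 : polyAt a N (θ₀ + s) = polyAt a N θ₀ * cexp (L (s : ℂ)) *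
        cexp (I * ((N - 1 : ℕ) : ℂ) / 2 * (s : ℂ)) := by
      rw [hexp, Complex.exp_neg]
      have hexp2 := Complex.exp_ne_zero (I * ((N - 1 : ℕ) : ℂ) / 2 * (s : ℂ))
      field_simp
    rw [h2, mul_assoc, mul_assoc, ← Complex.exp_add, ← Complex.exp_add]
    congr 2
    have hL : L (s : ℂ) = deriv L 0 * (s : ℂ) + E := by rw [hE]; ring
    rw [hL, hLd]
    have hW' : W = (W.re : ℂ) + (W.im : ℂ) * I := (Complex.re_add_im W).symm
    have hs' : (s : ℂ) = (t : ℂ) / (N : ℂ) := by rw [hs]; push_cast; ring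
    have hNc : (N : ℂ) ≠ 0 := by exact_mod_cast hN'.ne'
    push_cast
    rw [hs']
    nth_rewrite 1 [hW']
    field_simp
    ring_nf
    rw [Complex.I_sq]
    ring

/-- **Local rigidity.** A nearly flat polynomial is, on scale `1/N`, a pure frequency. -/
theorem rigidity (K η : ℝ) (hK : 1 ≤ K) (hη : 0 < η) (hη1 : η ≤ 1) :
    ∃ ε₀ : ℝ, 0 < ε₀ ∧ ∀ ε : ℝ, 0 ≤ ε → ε ≤ ε₀ → ∀ N : ℕ, 1 ≤ N → ∀ a : ℕ → ℤ, IsFlat ε a N →
      ∀ θ : ℝ, -(1 / 8) ≤ phaseDeriv a N θ / N ∧ phaseDeriv a N θ / N ≤ 9 / 8 ∧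
        ∀ t : ℝ, |t| ≤ K → ‖polyAt a N (θ + t / N) - polyAt a N θ *
          cexp (I * ((phaseDeriv a N θ / N : ℝ) : ℂ) * (t : ℂ))‖ ≤ η * Real.sqrt N := by
  set Y : ℝ := 1000 * K ^ 2 / η with hY
  have hK0 : 0 < K := by linarith
  have hY1 : 1000 * K ^ 2 ≤ Y := by
    rw [hY, le_div_iff₀ hη]
    have : 0 ≤ 1000 * K ^ 2 := by positivity
    nlinarith
  have hK2 : K ≤ K ^ 2 := by nlinarith
  have hY1000 : 1000 ≤ Y := by nlinarith
  have hYpos : 0 < Y := by linarith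
  refine ⟨min (Real.exp (-Y) / 2) (η / (100 * K)), ?_, ?_⟩
  · apply lt_min
    · positivity
    · positivity
  intro ε hε hεle N hN a hflat θ
  have hε1 : ε ≤ Real.exp (-Y) / 2 := le_trans hεle (min_le_left _ _)
  have hε2 : ε ≤ η / (100 * K) := le_trans hεle (min_le_right _ _)
  have hε3 : ε ≤ 1 / 100 := by
    have h1 : η / (100 * K) ≤ 1 / 100 := by
      rw [div_le_div_iff₀ (by positivity) (by norm_num)]
      nlinarith
    linarith
  have h64 : 64 / Y ≤ 64 / 1000 := by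
    gcongr
  obtain ⟨h1, h2, h3, h4⟩ := rigidity_aux hflat hε (by linarith) hN (by linarith) hε1 θ
  refine ⟨by linarith, by linarith, ?_⟩
  intro t ht
  have htY : |t| ≤ Y / 4 := by
    have : K ≤ Y / 4 := by nlinarith
    linarith
  obtain ⟨E, hE, heq⟩ := h4 t htY
  rw [heq]
  set c : ℝ := phaseDeriv a N θ / N with hc
  set κ : ℝ := (zDerivAt a N θ / polyAt a N θ).im / N with hκ
  set e' : ℂ := -((κ * t : ℝ) : ℂ) + E with he'
  have hKη : 128 * K ^ 2 / Y = 128 / 1000 * η := by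
    rw [hY]; field_simp
  have ht2 : t ^ 2 ≤ K ^ 2 := by
    have := sq_le_sq' (by linarith [abs_le.mp ht]) (abs_le.mp ht).2
    exact this
  have hE' : ‖E‖ ≤ 64 * K ^ 2 / Y := by
    refine le_trans hE ?_
    gcongr
  have hκt : |κ * t| ≤ (2 * ε + 64 / Y) * K := by
    rw [abs_mul]
    gcongr
  have h64K : 64 / Y * K ≤ 64 * K ^ 2 / Y := by
    rw [div_mul_eq_mul_div]
    gcongr
  have he'n : ‖e'‖ ≤ 148 / 1000 * η := by
    have h5 : ‖e'‖ ≤ |κ * t| + ‖E‖ := by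
      refine le_trans (norm_add_le _ _) ?_
      rw [norm_neg, Complex.norm_real, Real.norm_eq_abs]
    have h6 : 2 * ε * K ≤ 2 * (η / (100 * K)) * K := by gcongr
    have h7 : 2 * (η / (100 * K)) * K = 2 / 100 * η := by field_simp
    have h8 : 64 * K ^ 2 / Y = 64 / 1000 * η := by
      rw [hY]; field_simp
    have h9 : (2 * ε + 64 / Y) * K = 2 * ε * K + 64 / Y * K := by ring
    rw [h9] at hκt
    linarith
  have he'1 : ‖e'‖ ≤ 1 := by linarith
  have hexp1 : ‖cexp e' - 1‖ ≤ 2 * ‖e'‖ := Complex.norm_exp_sub_one_le he'1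
  have hnormc : ‖cexp (I * (c : ℂ) * (t : ℂ))‖ = 1 := by
    have : I * (c : ℂ) * (t : ℂ) = ((c * t : ℝ) : ℂ) * I := by push_cast; ring
    rw [this, Complex.norm_exp_ofReal_mul_I]
  have hA : ‖polyAt a N θ‖ ≤ 3 / 2 * Real.sqrt N := by
    have h5 := norm_sq_polyAt_le hflat θ
    have hN0 : (0 : ℝ) ≤ N := Nat.cast_nonneg _
    have h6 : (1 + ε) * (N : ℝ) ≤ (3 / 2 * Real.sqrt N) ^ 2 := by
      rw [mul_pow, Real.sq_sqrt hN0]
      nlinarith
    exact (pow_le_pow_iff_left₀ (norm_nonneg _) (by positivity) (by norm_num)).mp (le_trans h5 h6)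
  have hfac : polyAt a N θ * cexp (I * (c : ℂ) * (t : ℂ)) * cexp e' -
      polyAt a N θ * cexp (I * (c : ℂ) * (t : ℂ)) =
      polyAt a N θ * cexp (I * (c : ℂ) * (t : ℂ)) * (cexp e' - 1) := by ring
  rw [hfac, norm_mul, norm_mul, hnormc, mul_one]
  have hs0 : 0 ≤ Real.sqrt N := Real.sqrt_nonneg _
  calc ‖polyAt a N θ‖ * ‖cexp e' - 1‖ ≤ (3 / 2 * Real.sqrt N) * (2 * (148 / 1000 * η)) := by
        gcongr
        linarith
    _ ≤ η * Real.sqrt N := by nlinarith [mul_nonneg hη.le hs0]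

end

end Vale.Agent.Lib.P110
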