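import Vale.Agent.Lib.P110.Gap5
import Vale.Agent.Lib.P110.Count

namespace Vale.Agent.Lib.P110

open Finset

/-- real functions which are finite sums of pure exponentials. -/
def IsTrigR (f : ℝ → ℝ) : Prop :=
  ∃ (ι : Type) (_ : Fintype ι) (β : ι → ℂ) (t : ι → ℝ), ∀ y : ℝ,
    (f y : ℂ) = ∑ i, β i * Complex.exp (Complex.I * (t i : ℂ) * (y : ℂ))

lemma IsTrigR.const (c : ℝ) : IsTrigR (fun _ => c) :=
  ⟨Unit, inferInstance, fun _ => (c : ℂ), fun _ => 0, fun y => by simp⟩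

lemma IsTrigR.add {f g : ℝ → ℝ} (hf : IsTrigR f) (hg : IsTrigR g) :
    IsTrigR (fun y => f y + g y) := by
  obtain ⟨ι, i1, β, t, h⟩ := hf
  obtain ⟨κ, i2, β', t', h'⟩ := hg
  refine ⟨ι ⊕ κ, inferInstance, Sum.elim β β', Sum.elim t t', fun y => ?_⟩
  rw [Fintype.sum_sum_type]
  simp only [Sum.elim_inl, Sum.elim_inr]
  push_cast
  rw [h, h']

lemma IsTrigR.mul {f g : ℝ → ℝ} (hf : IsTrigR f) (hg : IsTrigR g) :
    IsTrigR (fun y => f y * g y) := by
  obtain ⟨ι, i1, β, t, h⟩ := hf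
  obtain ⟨κ, i2, β', t', h'⟩ := hg
  refine ⟨ι × κ, inferInstance, fun p => β p.1 * β' p.2, fun p => t p.1 + t' p.2, fun y => ?_⟩
  push_cast
  rw [h, h', Finset.sum_mul_sum, ← Finset.sum_product']
  refine Finset.sum_congr (by ext; simp) fun p _ => ?_
  have : Complex.I * ((t p.1 : ℂ) + (t' p.2 : ℂ)) * (y : ℂ) =
      Complex.I * (t p.1 : ℂ) * (y : ℂ) + Complex.I * (t' p.2 : ℂ) * (y : ℂ) := by ring
  rw [this, Complex.exp_add]
  ring

lemma IsTrigR.pow {f : ℝ → ℝ} (hf : IsTrigR f) (n : ℕ) : IsTrigR (fun y => f y ^ n) := by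
  induction n with
  | zero => simpa using IsTrigR.const 1
  | succ n ih =>
    have := ih.mul hf
    simpa [pow_succ] using this

lemma IsTrigR.sub {f g : ℝ → ℝ} (hf : IsTrigR f) (hg : IsTrigR g) :
    IsTrigR (fun y => f y - g y) := by
  have := hf.add ((IsTrigR.const (-1)).mul hg)
  have h2 : (fun y => f y + -1 * g y) = (fun y => f y - g y) := by
    funext y
    ring
  rwa [h2] at this

lemma isTrigR_cos (τ : ℝ) : IsTrigR (fun y => Real.cos (τ * y)) := by
  refine ⟨Bool, inferInstance, fun _ => (1 / 2 : ℂ), fun b => if b then τ else -τ, fun y => ?_⟩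
  rw [Fintype.sum_bool]
  simp only [if_true, Bool.false_eq_true, if_false]
  push_cast
  rw [Complex.cos]
  have h1 : ((τ : ℂ) * (y : ℂ)) * Complex.I = Complex.I * (τ : ℂ) * (y : ℂ) := by ring
  have h2 : -((τ : ℂ) * (y : ℂ)) * Complex.I = Complex.I * (-(τ : ℂ)) * (y : ℂ) := by ring
  rw [h1, h2]
  ring

/-- the basic bump -/
noncomputable def bumpB (y : ℝ) : ℝ := (1 + Real.cos (Real.pi / 2 * y)) / 2

/-- the window. -/
noncomputable def winW (A C : ℕ) (y : ℝ) : ℝ := 1 - (1 - bumpB y ^ A) ^ C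

lemma isTrigR_bumpB : IsTrigR bumpB := by
  have h := ((IsTrigR.const 1).add (isTrigR_cos (Real.pi / 2))).mul (IsTrigR.const (1 / 2))
  have h2 : (fun y => (1 + Real.cos (Real.pi / 2 * y)) * (1 / 2)) = bumpB := by
    funext y
    unfold bumpB
    ring
  rwa [h2] at h

lemma isTrigR_winW (A C : ℕ) : IsTrigR (winW A C) :=
  (IsTrigR.const 1).sub (((IsTrigR.const 1).sub (isTrigR_bumpB.pow A)).pow C)

lemma bumpB_mem (y : ℝ) : 0 ≤ bumpB y ∧ bumpB y ≤ 1 := by
  unfold bumpB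
  have h1 := Real.neg_one_le_cos (Real.pi / 2 * y)
  have h2 := Real.cos_le_one (Real.pi / 2 * y)
  constructor <;> linarith

lemma bumpB_anti {y y' : ℝ} (h : |y| ≤ |y'|) (h' : |y'| ≤ 2) : bumpB y' ≤ bumpB y := by
  unfold bumpB
  have h1 : Real.cos (Real.pi / 2 * y) = Real.cos (Real.pi / 2 * |y|) := by
    rw [← Real.cos_abs, abs_mul, abs_of_pos (by positivity : 0 < Real.pi / 2)]
  have h2 : Real.cos (Real.pi / 2 * y') = Real.cos (Real.pi / 2 * |y'|) := by
    rw [← Real.cos_abs, abs_mul, abs_of_pos (by positivity : 0 < Real.pi / 2)]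
  rw [h1, h2]
  have hpi := Real.pi_pos
  have h3 : Real.cos (Real.pi / 2 * |y'|) ≤ Real.cos (Real.pi / 2 * |y|) := by
    apply Real.cos_le_cos_of_nonneg_of_le_pi
    · positivity
    · nlinarith
    · gcongr
  linarith

lemma winW_mem (A C : ℕ) (y : ℝ) : 0 ≤ winW A C y ∧ winW A C y ≤ 1 := by
  unfold winW
  have hb := bumpB_mem y
  have h1 : bumpB y ^ A ≤ 1 := pow_le_one₀ hb.1 hb.2
  have h2 : 0 ≤ bumpB y ^ A := pow_nonneg hb.1 _
  have h3 : 0 ≤ 1 - bumpB y ^ A := by linarith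
  have h4 : (1 - bumpB y ^ A) ^ C ≤ 1 := pow_le_one₀ h3 (by linarith)
  have h5 : 0 ≤ (1 - bumpB y ^ A) ^ C := pow_nonneg h3 _
  constructor <;> linarith

lemma bump_strict {r : ℝ} (hr : 0 < r) (hr1 : r ≤ 1) : bumpB r < bumpB (r / 2) := by
  unfold bumpB
  have hpi := Real.pi_pos
  have h : Real.cos (Real.pi / 2 * r) < Real.cos (Real.pi / 2 * (r / 2)) := by
    apply Real.cos_lt_cos_of_nonneg_of_le_pi
    · positivity
    · nlinarith
    · nlinarith
  linarith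

/-- A window with the required shape exists. -/
lemma exists_window {r δt : ℝ} (hr : 0 < r) (hr1 : r ≤ 1) (hδ : 0 < δt) :
    ∃ A C : ℕ, (∀ y : ℝ, |y| ≤ r / 2 → 1 / 2 ≤ winW A C y) ∧
      (∀ y : ℝ, r ≤ |y| → |y| ≤ 2 → winW A C y ≤ δt) := by
  set b₁ := bumpB (r / 2) with hb₁
  set b₂ := bumpB r with hb₂
  have hlt : b₂ < b₁ := bump_strict hr hr1
  have hb₂0 : 0 ≤ b₂ := (bumpB_mem r).1
  have hb₁0 : 0 < b₁ := lt_of_le_of_lt hb₂0 hlt
  have hb₁1 : b₁ ≤ 1 := (bumpB_mem _).2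
  have hratio0 : 0 ≤ b₂ / b₁ := by positivity
  have hratio1 : b₂ / b₁ < 1 := by
    rw [div_lt_one hb₁0]
    exact hlt
  obtain ⟨A, hA⟩ := ((tendsto_pow_atTop_nhds_zero_of_lt_one hratio0 hratio1).eventually
    (gt_mem_nhds (by positivity : 0 < δt / 2))).exists
  have hbA : 0 < b₁ ^ A := by positivity
  set C : ℕ := ⌈1 / b₁ ^ A⌉₊ with hC
  have hC1 : 1 / b₁ ^ A ≤ C := Nat.le_ceil _
  have hinv1 : 1 ≤ 1 / b₁ ^ A := by
    rw [le_div_iff₀ hbA, one_mul]
    exact pow_le_one₀ hb₁0.le hb₁1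
  have hC2 : (C : ℝ) ≤ 2 * (1 / b₁ ^ A) := by
    have := (Nat.ceil_lt_add_one (by linarith : 0 ≤ 1 / b₁ ^ A)).le
    linarith
  refine ⟨A, C, ?_, ?_⟩
  · intro y hy
    have h1 : b₁ ≤ bumpB y := by
      apply bumpB_anti
      · rw [abs_of_pos (by positivity : 0 < r / 2)]
        exact hy
      · rw [abs_of_pos (by positivity : 0 < r / 2)]
        linarith
    have h2 := bumpB_mem y
    have h3 : b₁ ^ A ≤ bumpB y ^ A := by gcongr
    have h4 : bumpB y ^ A ≤ 1 := pow_le_one₀ h2.1 h2.2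
    have h5 : (1 - bumpB y ^ A) ^ C ≤ 1 / 2 := by
      have h6 : 1 - bumpB y ^ A ≤ Real.exp (-(b₁ ^ A)) := by
        have := Real.add_one_le_exp (-(b₁ ^ A))
        linarith
      have h7 : 0 ≤ 1 - bumpB y ^ A := by linarith
      calc (1 - bumpB y ^ A) ^ C ≤ (Real.exp (-(b₁ ^ A))) ^ C := by gcongr
        _ = Real.exp (-(C * b₁ ^ A)) := by
          rw [← Real.exp_nat_mul]
          congr 1
          ring
        _ ≤ Real.exp (-1) := by
          apply Real.exp_le_exp.mpr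
          have : 1 ≤ (C : ℝ) * b₁ ^ A := by
            rwa [div_le_iff₀ hbA] at hC1
          linarith
        _ ≤ 1 / 2 := by
          rw [Real.exp_neg]
          have := Real.add_one_le_exp (1 : ℝ)
          rw [inv_eq_one_div]
          apply one_div_le_one_div_of_le <;> linarith
    unfold winW
    linarith
  · intro y hy hy2
    have h1 : bumpB y ≤ b₂ := by
      apply bumpB_anti
      · rw [abs_of_pos hr]
        exact hy
      · exact hy2
    have h2 := bumpB_mem y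
    have h3 : bumpB y ^ A ≤ b₂ ^ A := by gcongr; exact h2.1
    have h4 : 0 ≤ bumpB y ^ A := pow_nonneg h2.1 _
    have h5 : bumpB y ^ A ≤ 1 := pow_le_one₀ h2.1 h2.2
    have hbern : 1 - (C : ℝ) * bumpB y ^ A ≤ (1 - bumpB y ^ A) ^ C := by
      have := one_add_mul_le_pow (a := -(bumpB y ^ A)) (by linarith) C
      have h6 : 1 + -(bumpB y ^ A) = 1 - bumpB y ^ A := by ring
      rw [h6] at this
      linarith
    unfold winW
    have h6 : (C : ℝ) * bumpB y ^ A ≤ δt := by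
      calc (C : ℝ) * bumpB y ^ A ≤ (2 * (1 / b₁ ^ A)) * b₂ ^ A := by gcongr
        _ = 2 * (b₂ / b₁) ^ A := by rw [div_pow]; ring
        _ ≤ 2 * (δt / 2) := by gcongr
        _ = δt := by ring
    linarith

end Vale.Agent.Lib.P110
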